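import Vale.Agent.P354XL.RowD
import Vale.Agent.P354SI.Sl

/-!
PW: the pointwise inequalities for the estimate of low order.
-/

open Filter

namespace Vale.Agent.P354LN

open Vale.Agent.P354XI Vale.Agent.P354Z Vale.Agent.P354SI
open Vale.Agent.P354XF (wd spn Der Brg)
open Vale.Agent.P354XT (words mem_words)
open Vale.Agent.P354YH (wt)

section
variable {A B : Type*} [CommRing A] [Algebra ℂ A] (Z : B → Der A) (φ : A →ₐ[ℂ] ℂ)

theorem wd_add (J : List B) (u v : A) : wd Z J (u + v) = wd Z J u + wd Z J v := by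
  induction J with
  | nil => rfl
  | cons a J ih => simp only [wd, ih, map_add]

theorem wd_sum {ι : Type*} (J : List B) (s : Finset ι) (u : ι → A) :
    wd Z J (∑ i ∈ s, u i) = ∑ i ∈ s, wd Z J (u i) := by
  induction J with
  | nil => rfl
  | cons a J ih => simp only [wd, ih, map_sum]

theorem wd_app (p q : List B) (f : A) : wd Z (p ++ q) f = wd Z p (wd Z q f) := by
  induction p with
  | nil => rfl
  | cons a p ih => simp only [List.cons_append, wd, ih]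

/-- The rule of Leibniz. -/
theorem wd_mul (J : List B) {U V : ℝ} : ∀ u v : A,
    (∀ I : List B, I.length ≤ J.length → ‖φ (wd Z I u)‖ ≤ U) →
    (∀ I : List B, I.length ≤ J.length → ‖φ (wd Z I v)‖ ≤ V) →
    ‖φ (wd Z J (u * v))‖ ≤ 2 ^ J.length * (U * V) := by
  induction J using List.reverseRecOn with
  | nil =>
    intro u v a b
    rw [List.length_nil, pow_zero, one_mul, wd, map_mul, norm_mul]
    exact mul_le_mul (a [] le_rfl) (b [] le_rfl) (norm_nonneg _) ((norm_nonneg _).trans (a [] le_rfl))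
  | append_singleton J c ih =>
    intro u v a b
    rw [List.length_append, List.length_singleton] at a b ⊢
    have e : ∀ {w : A} {W : ℝ}, (∀ I : List B, I.length ≤ J.length + 1 → ‖φ (wd Z I w)‖ ≤ W) →
        ∀ I : List B, I.length ≤ J.length → ‖φ (wd Z I (Z c w))‖ ≤ W := fun k I h => by
      simpa only [wd_app, wd] using k (I ++ [c]) (by simpa using h)
    rw [wd_app, wd, wd, Derivation.leibniz, smul_eq_mul, smul_eq_mul, mul_comm v, wd_add, map_add,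
      pow_succ]
    linarith [norm_add_le (φ (wd Z J (u * Z c v))) (φ (wd Z J (Z c u * v))),
      ih u (Z c v) (fun I h => a I (by omega)) (e b), ih (Z c u) v (e a) fun I h => b I (by omega)]

end

/-- The words of the fields and of the equation at a point. -/
theorem out_pt {A : Type*} [CommRing A] [Algebra ℂ A] {ι : Type} {b : Brg A ι} {t L : ℕ}
    {C h x : ℝ} {φ : A →ₐ[ℂ] ℂ} (o : b.Out t L C (C * h) φ) (hL : t ≤ L) (c0 : 0 ≤ C)
    (h0 : 0 ≤ h) (h1 : h ≤ 1) (hx : ∀ σ, b.Nb φ σ t x) (σ : Bool) (J : List (Fin 5)) :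
    (J.length ≤ t → ‖φ (b.fm σ J)‖ ≤ ‖φ (wd b.X J (b.fm σ []))‖ + C ^ 2 * h * x ∧
      ‖φ (wd b.X J (b.fm σ []))‖ ≤ (1 + C ^ 2) * x) ∧
    (J.length + 2 ≤ t → ‖φ (wd b.X J (b.P (spn σ) (spn σ) (b.fm σ [])))‖ ≤
      C ^ 2 * (1 + 25 * 2 ^ t * (1 + C ^ 2)) * h * x) := by
  have x0 := (hx σ).nn
  have k : ∀ J : List (Fin 5), J.length ≤ t →
      ‖φ (b.fm σ J)‖ ≤ ‖φ (wd b.X J (b.fm σ []))‖ + C ^ 2 * h * x ∧
      ‖φ (wd b.X J (b.fm σ []))‖ ≤ (1 + C ^ 2) * x := fun J e => by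
    have e1 := o.hon σ J [] (e.trans hL) (by simpa using e) x hx
    rw [List.append_nil, map_sub] at e1
    have e2 := norm_sub_norm_le (φ (wd b.X J (b.fm σ []))) (φ (b.fm σ J))
    have e3 := norm_sub_norm_le (φ (b.fm σ J)) (φ (wd b.X J (b.fm σ [])))
    rw [norm_sub_rev] at e3
    exact ⟨by linarith, by
      nlinarith [hx σ J e, mul_le_mul_of_nonneg_left h1 (mul_nonneg (sq_nonneg C) x0)]⟩
  refine ⟨k J, fun e => ?_⟩
  have e1 := o.eqY σ [] J (by simp) (e.trans hL) (by simp; omega) x hx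
  have e2 : ‖φ (wd b.X J (b.Q (b.fm σ [])))‖ ≤
      25 * (2 ^ t * (C * (C * h) * ((1 + C ^ 2) * x))) := by
    rw [Brg.Q, wd_sum, map_sum]
    refine (norm_sum_le_of_le _ (n := fun _ => 5 * (2 ^ t * (C * (C * h) * ((1 + C ^ 2) * x))))
      fun a _ => ?_).trans (by simp; linarith)
    rw [wd_sum, map_sum]
    refine (norm_sum_le_of_le _ (n := fun _ => 2 ^ t * (C * (C * h) * ((1 + C ^ 2) * x)))
      fun a' _ => ?_).trans (by simp)
    refine (wd_mul b.X φ J _ _ (fun I i => o.del a a' I (by omega)) fun I i => ?_).trans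
      (mul_le_mul_of_nonneg_right (pow_le_pow_right₀ one_le_two (by omega)) (by positivity))
    simpa only [wd_app, wd] using (k (I ++ [a, a']) (by simp; omega)).2
  rw [wd_add, map_add] at e1
  have e3 := norm_sub_le (φ (wd b.X J (b.P (spn σ) (spn σ) (b.fm σ []))) +
    φ (wd b.X J (b.Q (b.fm σ [])))) (φ (wd b.X J (b.Q (b.fm σ []))))
  rw [add_sub_cancel_right] at e3
  linarith

theorem lv_ge {P : Pr} (σ : St P) {m : ℕ} (x) (b : Bool) {J : List (Fin 5)} (h : J.length ≤ m) :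
    ‖fv (σ.f b J) x‖ ^ 2 ≤ σ.lv m x :=
  (Finset.single_le_sum (f := fun J => ‖fv (σ.f b J) x‖ ^ 2) (fun _ _ => by positivity)
    (mem_words.2 h)).trans (Finset.single_le_sum (f := fun b => ∑ J ∈ words m,
      ‖fv (σ.f b J) x‖ ^ 2) (fun _ _ => by positivity) (Finset.mem_univ b))

/-- **PW.** -/
theorem pw {P : Pr} (hP : P.Ok) (hD : DICT P) : P354XL.PW P := by
  intro ρ
  obtain ⟨C, c0, h⟩ := hD (P.n0 + 4) 2 ρ
  obtain ⟨K, hK⟩ : ∃ K : ℝ, K = C ^ 2 * (1 + 25 * 2 ^ (P.n0 + 4) * (1 + C ^ 2)) := ⟨_, rfl⟩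
  obtain ⟨n, hn⟩ : ∃ n : ℝ, n = (words (P.n0 - 1)).card := ⟨_, rfl⟩
  have n0 : 0 ≤ n := hn ▸ Nat.cast_nonneg _
  obtain ⟨C', a1, a2, a3, a4, a5⟩ : ∃ C', C ≤ C' ∧ 2 * C ≤ C' ∧ 4 * n * C ^ 6 ≤ C' ∧
      (1 + C ^ 2) ^ 2 * C ≤ C' ∧ K ^ 2 * C ≤ C' := by
    refine ⟨2 * C + 4 * n * C ^ 6 + (1 + C ^ 2) ^ 2 * C + K ^ 2 * C, ?_⟩
    have : 0 ≤ 4 * n * C ^ 6 := by positivity
    have : 0 ≤ (1 + C ^ 2) ^ 2 * C := by positivity
    have : 0 ≤ K ^ 2 * C := by positivity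
    exact ⟨by linarith, by linarith, by linarith, by linarith, by linarith⟩
  refine ⟨C', c0.le.trans a1, ?_⟩
  filter_upwards [h, ev_e (P.n0 + 4) one_pos] with σ h e
  refine ⟨h.1.trans (mul_le_mul_of_nonneg_right a1 σ.e0.le), fun x j x1 x2 x3 => ?_⟩
  obtain ⟨o, k⟩ := h.2 x j x1 x2 x3
  have h0 := (fh_pos σ j).le
  have h1 : fh P σ j ≤ 1 := mul_le_one₀ e.1 (by unfold wt; positivity)
    (Real.rpow_le_one_of_one_le_of_nonpos (by simp) (by linarith [hP.s1]))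
  have η0 := σ.eta_nn (P.n0 + 4) x
  obtain ⟨y, y0, y1, y2⟩ : ∃ y, 0 ≤ y ∧ y ^ 2 ≤ C * σ.E.eta (P.n0 + 4) x ∧
      σ.lv (P.n0 + 4) x ≤ y ^ 2 :=
    ⟨√(σ.lv (P.n0 + 4) x), Real.sqrt_nonneg _, by
      rw [Real.sq_sqrt (σ.lv_nn _ _)]; exact (k _ le_rfl).2, (Real.sq_sqrt (σ.lv_nn _ _)).ge⟩
  have nb : ∀ b J, List.length J ≤ P.n0 + 4 → ‖fv (σ.f b J) x.1‖ ≤ y := fun b J i =>
    le_of_sq_le_sq ((lv_ge σ x.1 b i).trans y2) y0
  have q := out_pt o (by have := hP.N0; omega) c0.le h0 h1 nb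
  generalize fh P σ j = η at *
  generalize σ.E.eta (P.n0 + 4) x = E at *
  have hh : η ^ 2 * y ^ 2 ≤ C * (η * E) := by
    nlinarith [mul_le_mul_of_nonneg_left y1 (sq_nonneg η), mul_le_mul_of_nonneg_left h1
      (show 0 ≤ C * (η * E) by positivity)]
  refine ⟨((k _ (by omega)).1.trans (mul_le_mul_of_nonneg_left (Finset.sum_le_sum fun b _ =>
    Finset.sum_le_sum (g := fun J => 2 * ‖fv (wd σ.X J (σ.f b [])) x.1‖ ^ 2 +
      2 * C ^ 5 * (η * E)) fun J i => ?_) c0.le)).trans ?_, fun b J => ⟨fun i => ?_, fun i => ?_⟩⟩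
  · have e1 : ‖fv (σ.f b J) x.1‖ ≤ ‖fv (wd σ.X J (σ.f b [])) x.1‖ + C ^ 2 * η * y :=
      ((q b J).1 (by have := mem_words.1 i; omega)).1
    nlinarith [pow_le_pow_left₀ (norm_nonneg _) e1 2,
      sq_nonneg (‖fv (wd σ.X J (σ.f b [])) x.1‖ - C ^ 2 * η * y),
      mul_le_mul_of_nonneg_left hh (show 0 ≤ C ^ 4 by positivity)]
  · simp only [Finset.sum_add_distrib, ← Finset.mul_sum, Finset.sum_const, nsmul_eq_mul, ← hn,
      Finset.card_univ, Fintype.card_bool, Nat.cast_ofNat]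
    have s0 : 0 ≤ ∑ b, ∑ J ∈ words (P.n0 - 1), ‖fv (wd σ.X J (σ.f b [])) x.1‖ ^ 2 := by positivity
    nlinarith [mul_le_mul_of_nonneg_right a2 s0, mul_le_mul_of_nonneg_right a3 (mul_nonneg h0 η0)]
  · have e1 : ‖fv (wd σ.X J (σ.f b [])) x.1‖ ≤ (1 + C ^ 2) * y := ((q b J).1 i).2
    nlinarith [pow_le_pow_left₀ (norm_nonneg _) e1 2, mul_le_mul_of_nonneg_right a4 η0,
      mul_le_mul_of_nonneg_left y1 (sq_nonneg (1 + C ^ 2))]
  · have e1 : ‖fv (wd σ.X J (σ.R.brg.P (spn b) (spn b) (σ.f b []))) x.1‖ ≤ K * η * y :=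
      hK ▸ (q b J).2 (by omega)
    nlinarith [pow_le_pow_left₀ (norm_nonneg _) e1 2,
      mul_le_mul_of_nonneg_right a5 (mul_nonneg h0 η0), mul_le_mul_of_nonneg_left hh (sq_nonneg K)]

end Vale.Agent.P354LN
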