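import Vale.Agent.P354XE.Gt
import Vale.Agent.P354XA.Lid
import Vale.Agent.P354YR.Cau

/-!
Functions which are monotone along a cone, and the time function -r on a range of radii.
-/

open scoped ContDiff
open Set Filter Topology

noncomputable section

namespace Vale.Agent.P354LN

open Vale.Agent.P354n (R4)
open Vale.Agent.P354 (Bilin)
open Vale.Agent.P354I (rm rp rnd Sg)
open Vale.Agent.P354R (Del Met)
open Vale.Agent.P354XE
open Vale.Agent.P354XA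

/-- f does not decrease, or increases, along the vectors of C. -/
def Mo (C : R4 → Prop) (f : R4 → ℝ) (p : R4) : Prop :=
  ContDiffAt ℝ 1 f p ∧ ∀ w, C w → 0 ≤ fderiv ℝ f p w
def Ms (C : R4 → Prop) (f : R4 → ℝ) (p : R4) : Prop :=
  ContDiffAt ℝ 1 f p ∧ ∀ w, C w → 0 < fderiv ℝ f p w

/-- The future causal vectors. -/
def Ca (g : Tw) (Xf : R4 → R4) (p w : R4) : Prop := w ≠ 0 ∧ g p w w ≤ 0 ∧ g p w (Xf p) ≤ 0

section
variable {C C' : R4 → Prop} {f h : R4 → ℝ} {p : R4} {g : Tw} {D : Set R4} {Xf : R4 → R4}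

theorem df (k : ContDiffAt ℝ 1 f p) : DifferentiableAt ℝ f p := k.differentiableAt one_ne_zero

theorem Ms.mo (k : Ms C f p) : Mo C f p := ⟨k.1, fun w j => (k.2 w j).le⟩

theorem Mo.congr (k : Mo C f p) (e : h =ᶠ[𝓝 p] f) : Mo C h p :=
  ⟨k.1.congr_of_eventuallyEq e, by rw [e.fderiv_eq]; exact k.2⟩

theorem Mo.ev (c : ℝ) (e : ∀ᶠ x in 𝓝 p, h x = c) : Mo C h p :=
  Mo.congr (f := fun _ => c) ⟨contDiffAt_const, fun w _ => by simp⟩ e

theorem Mo.add (k : Mo C f p) (j : Mo C h p) : Mo C (fun x => f x + h x) p :=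
  ⟨k.1.add j.1, fun w c => by
    rw [fderiv_fun_add (df k.1) (df j.1)]; exact add_nonneg (k.2 w c) (j.2 w c)⟩

theorem Ms.add (k : Ms C f p) (j : Mo C h p) : Ms C (fun x => f x + h x) p :=
  ⟨k.1.add j.1, fun w c => by
    rw [fderiv_fun_add (df k.1) (df j.1)]; exact add_pos_of_pos_of_nonneg (k.2 w c) (j.2 w c)⟩

theorem Mo.add' (k : Mo C f p) (j : Ms C h p) : Ms C (fun x => f x + h x) p := by
  simpa only [add_comm] using j.add k

theorem Mo.mul (k : Mo C f p) (j : Mo C h p) (f0 : 0 ≤ f p) (h0 : 0 ≤ h p) :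
    Mo C (fun x => f x * h x) p :=
  ⟨k.1.mul j.1, fun w c => by
    rw [fderiv_fun_mul (df k.1) (df j.1)]
    exact add_nonneg (mul_nonneg f0 (j.2 w c)) (mul_nonneg h0 (k.2 w c))⟩

theorem Mo.mul' (k : Mo C f p) (j : Ms C h p) (f0 : 0 < f p) (h0 : 0 ≤ h p) :
    Ms C (fun x => f x * h x) p :=
  ⟨k.1.mul j.1, fun w c => by
    rw [fderiv_fun_mul (df k.1) (df j.1)]
    exact add_pos_of_pos_of_nonneg (mul_pos f0 (j.2 w c)) (mul_nonneg h0 (k.2 w c))⟩

theorem Mo.neg (k : Mo C f p) (j : ∀ w, C' w → C (-w)) : Mo C' (fun x => -f x) p :=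
  ⟨k.1.neg, fun w c => by
    have := k.2 _ (j w c)
    rwa [map_neg, ← _root_.neg_apply, ← fderiv_fun_neg] at this⟩

theorem Ms.neg (k : Ms C f p) (j : ∀ w, C' w → C (-w)) : Ms C' (fun x => -f x) p :=
  ⟨k.1.neg, fun w c => by
    have := k.2 _ (j w c)
    rwa [map_neg, ← _root_.neg_apply, ← fderiv_fun_neg] at this⟩

theorem Mo.comp {φ : ℝ → ℝ} (k : Mo C f p) (c : ContDiff ℝ 1 φ) (m : Monotone φ) :
    Mo C (fun x => φ (f x)) p :=
  ⟨c.contDiffAt.comp p k.1, fun w j => by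
    rw [show fderiv ℝ (fun x => φ (f x)) p = _ from ((c.differentiable one_ne_zero _).hasDerivAt.comp_hasFDerivAt
      p (df k.1).hasFDerivAt).fderiv]
    exact mul_nonneg m.deriv_nonneg (k.2 w j)⟩

theorem Ms.exp (k : Ms C f p) : Ms C (fun x => Real.exp (f x)) p :=
  ⟨k.1.exp, fun w j => by
    rw [(df k.1).hasFDerivAt.exp.fderiv]
    exact mul_pos (Real.exp_pos _) (k.2 w j)⟩

theorem ms_of (l : Lor g D Xf) (hp : p ∈ D) (k : Tm g Xf f p) : Ms (Ca g Xf p) f p :=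
  ⟨k.1, fun _ j => pos_of_ker (met_bil l.met hp) (l.met.symm p hp) _ k.2.2 k.2.1 (l.tl p hp).le j.2.1
    (j.2.2.lt_of_ne fun e => j.1 (P354YR.zero_of (l.sig p hp) (l.tl p hp) j.2.1 e))⟩

theorem Ms.tm (l : Lor g D Xf) (hp : p ∈ D) (k : Ms (Ca g Xf p) f p) : Tm g Xf f p :=
  P354YR.tm_of_pos l hp k.1 fun w a b c => k.2 w ⟨a, b, c⟩

end

variable {M a r0 r2 : ℝ}

/-- The levels of r are uniformly spacelike for Kerr on a range between the horizons. -/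
theorem near_rr (ha : |a| < M) (h1 : rm M a < r0) (h2 : r2 < rp M a) : ∃ c > 0, ∀ p, r0 ≤ rd p →
    rd p ≤ r2 → ∀ v : R4, dr p v = 0 → ‖v‖ ^ 2 ≤ c * gin M a p v v := by
  obtain ⟨-, m0, -, -, -, hD, -⟩ := hor ha
  have h0 : 0 < r0 := m0.trans_lt h1
  obtain ⟨E, E0, hE⟩ : ∃ E, 0 < E ∧ E = (rp M a - r2) * (r0 - rm M a) :=
    ⟨_, mul_pos (sub_pos.2 h2) (sub_pos.2 h1), rfl⟩
  obtain ⟨l, l0, l1, hl⟩ : ∃ l : ℝ, 0 < l ∧ l < 1 ∧ a ^ 2 ≤ l * (a ^ 2 + E / 2) :=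
    ⟨(2 * a ^ 2 + E) / (2 * a ^ 2 + 2 * E), by positivity, by
      rw [div_lt_one (by positivity)]; linarith, by
      rw [div_mul_eq_mul_div, le_div_iff₀ (by positivity)]; nlinarith [sq_nonneg E]⟩
  have l2 : 0 < 1 - l := sub_pos.2 l1
  refine ⟨4 * (r2 ^ 2 + a ^ 2) / E + (2 * a ^ 2 + r2 ^ 2) / ((1 - l) * r0 ^ 2) + 1, by positivity,
    fun p p1 p2 v hv => ?_⟩
  have r0' : 0 < rd p := h0.trans_le p1
  have h := r0'.ne'
  obtain ⟨D, D1, hD'⟩ : ∃ D, E ≤ D ∧ 2 * M * rd p = D + rd p ^ 2 + a ^ 2 :=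
    ⟨-Del M a (rd p), by
      rw [hD, hE, ← neg_mul, neg_sub]
      exact mul_le_mul (by linarith) (by linarith) (by linarith) (by linarith),
      by unfold Del; ring⟩
  have k1 := norm_sq_le v
  rw [ip_split h, hv] at k1
  obtain ⟨k2, k3⟩ := rnd_nonneg h v
  have k4 := dq_sq h v
  have s1 := Sg_ge a p
  have s2 := Sg_le a p
  have s3 := Sg_eq a p
  have z0 : 0 ≤ p.2.2.2 ^ 2 / rd p ^ 2 := by positivity
  have z1 : p.2.2.2 ^ 2 / rd p ^ 2 ≤ 1 := div_le_one_of_le₀ (by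
    rw [rd_sq, ip]; nlinarith [mul_self_nonneg p.2.1, mul_self_nonneg p.2.2.1]) (sq_nonneg _)
  obtain ⟨k, hk⟩ : ∃ k, v.1 = k + a * dq p v := ⟨v.1 - a * dq p v, by ring⟩
  have S0 : 0 < Sg a (rd p) (xs p) := lt_of_lt_of_le (by positivity) s1
  have key := r_alg2 (k := k) (Q := gin M a p v v) E0 l2 r0' k2 k3 s1 s2 (le_trans (by
    nlinarith [sq_nonneg k]) ((r_alg (k := k) (D := D) (S := Sg a (rd p) (xs p)) l0 l1
      (hl.trans (by gcongr)) z0 z1 k2 k4).trans_eq (by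
    rw [gin, kf, hv, hk]
    generalize p.2.2.2 ^ 2 / rd p ^ 2 = z at *
    generalize Sg a (rd p) (xs p) = S at *
    rw [hD']
    field_simp
    rw [s3]
    ring)))
  rw [hk] at k1
  have Q0 : 0 ≤ gin M a p v v := nonneg_of_mul_nonneg_right (le_trans (by positivity) key) (by positivity)
  refine (le_trans (by linarith only [k1]) key).trans (mul_le_mul_of_nonneg_right ?_ Q0)
  refine le_trans ?_ (le_add_of_nonneg_right zero_le_one)
  gcongr

/-- Minus r is a time function on the range. -/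
theorem tm_rd (ha : |a| < M) (h1 : rm M a < r0) (h2 : r2 < rp M a) : ∃ ε0 > 0, ∀ ε ∈ Ioc 0 ε0,
    ∀ N g D Y p, Met g D → p ∈ D → r0 ≤ rd p → rd p ≤ r2 → g p (Y p) (Y p) < 0 →
      Bd N (g - gin M a) p ε → Tm g Y (fun x => x.1) p → Tm g Y (fun x => -rd x) p := by
  obtain ⟨M0, m0, -, m2, -⟩ := hor ha
  have r00 : 0 < r0 := by linarith
  obtain ⟨c2, c20, hc2⟩ := near_rr ha h1 h2
  obtain ⟨ε0, hε0, hε⟩ := mem_nhdsGT_iff_exists_Ioc_subset.1 ((small c2 one_pos).and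
    (small (20 * M ^ 2) (pow_pos r00 2)))
  refine ⟨ε0, hε0, fun ε e N g D Y p hg hp p1 p2 yy hb ht => ?_⟩
  obtain ⟨e2, e3⟩ := hε e
  have r0' : 0 < rd p := by linarith
  have B := met_bil hg hp
  have sy := hg.symm p hp
  have fd : ∀ v, fderiv ℝ (fun x => -rd x) p v = -dr p v := fun v => by
    rw [fderiv_fun_neg, _root_.neg_apply, rd_fd r0'.ne']
  have ker : ∀ v ≠ 0, fderiv ℝ (fun x => -rd x) p v = 0 → 0 < g p v v := fun v v0 hv =>
    pos_near hb c20 e2 v0 (hc2 p p1 p2 v (by rwa [fd, neg_eq_zero] at hv))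
  obtain ⟨Z, z1, z2, z3, z4⟩ := near_Z (a := a) M0 r0' (by linarith)
  have zz : g p Z Z < 0 := by
    have k := hb 0 (Nat.zero_le _) Z Z
    rw [norm_iteratedFDeriv_zero] at k
    have k2 : g p Z Z - gin M a p Z Z ≤ ε * (‖Z‖ * ‖Z‖) := (abs_le.1 k).2
    nlinarith [mul_le_mul_of_nonneg_left z3 e.1.le]
  obtain ⟨-, y1, nt⟩ := ht
  rw [fderiv_fst] at y1 nt
  replace y1 : 0 < (Y p).1 := y1
  have yz : g p (Y p) Z < 0 := by
    rcases eq_or_ne (Z.1 • Y p + (-(Y p).1) • Z) 0 with k | k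
    · have := congrArg (fun u => g p u Z) k
      simp only [B.add_left, B.smul_left, show g p 0 Z = 0 by
        simpa using B.smul_left 0 0 Z] at this
      nlinarith
    · have := nt _ k (by simp [mul_comm])
      simp only [B.add_left, B.add_right, B.smul_left, B.smul_right, sy Z (Y p)] at this
      by_contra! k2
      nlinarith [mul_nonneg (mul_pos z1 y1).le k2, mul_pos (mul_pos z1 z1) (neg_pos.2 yy),
        mul_pos (mul_pos y1 y1) (neg_pos.2 zz)]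
  exact ⟨(rd_cd r0'.ne').neg, pos_of_ker B sy _ ker (by rw [fd]; linarith) zz.le yy.le yz, ker⟩

end Vale.Agent.P354LN
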