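import Vale.Agent.P354KX.Defs
import Vale.Agent.P354SN.Str
import Vale.Agent.P354YO.Patch

/-!
VH: the optical function v on a lens.
-/

open scoped ContDiff
open Set Filter Topology

noncomputable section

namespace Vale.Agent.P354LN

open Vale.Agent.P354n (R4)
open Vale.Agent.P354H (X3)
open Vale.Agent.P354I (X Dat)
open Vale.Agent.P354XE (Tw pt xs)
open Vale.Agent.P354XB (Box Win)
open Vale.Agent.P354EN (Dm)
open Vale.Agent.P354YM
open Vale.Agent.P354KX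

/-- Lifting of a circle valued function along a deformation. -/
theorem lift_ex {K : Set R4} {L : ℝ} {r : ℝ × R4 → R4} (hr : ContinuousOn r (Icc 0 1 ×ˢ K))
    (mr : MapsTo r (Icc 0 1 ×ˢ K) K) (r1 : ∀ x ∈ K, r (1, x) = x) {E : R4 → AddCircle L}
    (hE : ContinuousOn E K) {f : R4 → ℝ} (hf : ContinuousOn f K)
    (h0 : ∀ x ∈ K, E (r (0, x)) = f x) :
    ∃ F : R4 → ℝ, ContinuousOn F K ∧ (∀ x ∈ K, (F x : AddCircle L) = E x) ∧
      ∀ x ∈ K, (∀ s ∈ Icc (0 : ℝ) 1, r (s, x) = x) → F x = f x := by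
  classical
  have cov := AddCircle.isCoveringMap_coe L
  let H : C(unitInterval × K, AddCircle L) := ⟨fun q => E (r (q.1, q.2)),
    (hE.comp hr mr).comp_continuous (by fun_prop) fun q => ⟨q.1.2, q.2.2⟩⟩
  let f0 : C(K, ℝ) := ⟨fun x => f x, hf.comp_continuous continuous_subtype_val fun x => x.2⟩
  have H0 : ∀ x, H (0, x) = (f0 x : ℝ) := fun x => h0 x x.2
  have li := fun q => congrFun (cov.liftHomotopy_lifts H f0 H0) q
  refine ⟨fun x => if m : x ∈ K then cov.liftHomotopy H f0 H0 (1, ⟨x, m⟩) else 0, ?_,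
    fun x m => ?_, fun x m k => ?_⟩
  · rw [continuousOn_iff_continuous_domRestrict]
    refine ((cov.liftHomotopy H f0 H0).continuous.comp (Continuous.prodMk_right 1)).congr
      fun x => ?_
    simp only [domRestrict_apply, dif_pos x.2, Function.comp_apply]
  · simp only [dif_pos m]
    exact (li _).trans (congrArg E (r1 x m))
  · simp only [dif_pos m]
    refine (cov.const_of_comp (g := fun s : unitInterval => cov.liftHomotopy H f0 H0 (s, ⟨x, m⟩))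
      (by fun_prop) (fun s s' => ?_) 1 0).trans (cov.liftHomotopy_zero H f0 H0 _)
    exact ((li _).trans (congrArg E ((k _ s.2).trans (k _ s'.2).symm))).trans (li _).symm

/-- A lens is deformed to its bottom. -/
theorem retr {W : Set R4} {g : Tw} {Xf : R4 → R4} {τ : R4 → ℝ} {V : ℝ} {d : Dat}
    (L : Lens W g Xf τ V d) : ∃ r : ℝ × R4 → R4, ContinuousOn r (Icc 0 1 ×ˢ KV W τ V) ∧
      MapsTo r (Icc 0 1 ×ˢ KV W τ V) (KV W τ V) ∧ ∀ x ∈ KV W τ V, r (1, x) = x ∧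
        (r (0, x)).1 = 0 ∧ (x.1 = 0 → ∀ s, r (s, x) = x) := by
  obtain ⟨c, Ω, Φ, Ψ, E, S, -⟩ := P354SN.str W g Xf τ V d L g W Xf d 0 ∅ 0 0 ∅ L.lor
    ⟨⟨⟨isOpen_empty, contDiffOn_empty, contDiffOn_empty, mapsTo_empty _ _, fun _ m => m.elim⟩,
      fun _ m => m.elim, fun _ m => m.elim⟩, fun _ m => m.elim, fun _ m => m.elim⟩
    ⟨isCompact_empty, fun _ m => m.elim⟩ subset_rfl (injOn_empty _) fun _ m => m.elim
  have k : ∀ x ∈ KV W τ V, Ψ x ∈ Ω ∧ Φ (Ψ x) = x ∧ 0 ≤ (Ψ x).1 := fun x m => by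
    obtain ⟨p, a, rfl⟩ := S.onto m
    rw [S.left p a]
    exact ⟨a, rfl, (S.sgn p a).1.1 m.2.1⟩
  have z : ∀ p ∈ Ω, p.1 = 0 → Φ p = p := fun p m e => by
    have : pt 0 (xs p) = p := e ▸ rfl
    exact this ▸ (S.ro.st (xs p) (show pt 0 (xs p) ∈ Ω from this.symm ▸ m)).1
  have iI : ∀ q ∈ Icc (0 : ℝ) 1 ×ˢ KV W τ V, q.1 * (Ψ q.2).1 ∈ Icc 0 (Ψ q.2).1 := fun q m =>
    ⟨mul_nonneg m.1.1 (k _ m.2).2.2, mul_le_of_le_one_left (k _ m.2).2.2 m.1.2⟩
  have mΩ : ∀ q ∈ Icc (0 : ℝ) 1 ×ˢ KV W τ V, (q.1 * (Ψ q.2).1, (Ψ q.2).2) ∈ Ω := fun q m =>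
    S.ro.star _ (k _ m.2).1 _ (uIcc_of_le (k _ m.2).2.2 ▸ iI q m)
  have cΨ : ContinuousOn (fun q : ℝ × R4 => Ψ q.2) (Icc 0 1 ×ˢ KV W τ V) :=
    S.sm.continuousOn.comp continuousOn_snd fun q m => S.onto m.2
  refine ⟨fun q => Φ (q.1 * (Ψ q.2).1, (Ψ q.2).2), S.ro.rol.sb.continuousOn.comp
    ((continuousOn_fst.mul cΨ.fst).prodMk cΨ.snd) mΩ, fun q m =>
      S.past V le_rfl _ (k _ m.2).1 ((k _ m.2).2.1.symm ▸ m.2) _ (iI q m), fun x m => ⟨?_, ?_, ?_⟩⟩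
  · simpa using (k x m).2.1
  · exact (congrArg Prod.fst (z _ (mΩ (0, x) ⟨⟨le_rfl, zero_le_one⟩, m⟩) (zero_mul _))).trans
      (zero_mul _)
  · intro e s
    have e0 : (Ψ x).1 = 0 := le_antisymm (not_lt.1 fun a => by
      have := (S.sgn _ (k x m).1).2.2 a
      rw [(k x m).2.1, e] at this
      exact this.false) (k x m).2.2
    have : (s * (Ψ x).1, (Ψ x).2) = Ψ x := Prod.ext (by simp [e0]) rfl
    simp only [this, (k x m).2.1]

/-- A function on C is extended by two constants. -/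
theorem sep2 {K C O : Set R4} {u F : R4 → ℝ} {a b : ℝ} (hK : IsCompact K) (hC : IsClosed C)
    (hO : IsOpen O) (OC : O ⊆ C) (ab : a < b) (hF : ContinuousOn F K)
    (FC : ∀ x ∈ K, x ∈ C → F x = u x) (Fo : ∀ x ∈ K, x ∉ O → F x ≤ a ∨ b ≤ F x) :
    ∃ vh : R4 → ℝ, (∀ x ∈ C, vh x = u x) ∧
      (∀ x ∈ K, x ∉ C → F x = a ∨ F x = b → vh x = F x) ∧
      ∀ x ∈ K, (x ∈ C → (u x = a ∨ u x = b) ∧ ∀ᶠ z in 𝓝[C] x, u z = u x) →
        (∀ᶠ z in 𝓝 x, vh z = a) ∨ ∀ᶠ z in 𝓝 x, vh z = b := by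
  classical
  have cK := (hK.diff hO).isClosed
  have h0 := (hF.mono sdiff_subset).preimage_isClosed_of_isClosed cK (isClosed_Iic (a := a))
  have h1 := (hF.mono sdiff_subset).preimage_isClosed_of_isClosed cK (isClosed_Ici (a := b))
  obtain ⟨A, B, oA, oB, sA, sB, dj⟩ := SeparatedNhds.of_isCompact_isCompact
    (hK.of_isClosed_subset h0 fun _ m => m.1.1) (hK.of_isClosed_subset h1 fun _ m => m.1.1)
    (disjoint_left.2 fun x m m' => (ab.trans_le (le_trans m'.2 m.2)).false)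
  have nA : ∀ x ∈ B, x ∉ A := fun x m m' => disjoint_left.1 dj m' m
  refine ⟨fun z => if z ∈ C then u z else if z ∈ A then a else b, fun x m => if_pos m,
    fun x m n e => ?_, fun x m h => ?_⟩
  · rcases e with e | e
    · simp only [if_neg n, if_pos (sA ⟨⟨m, fun k => n (OC k)⟩, e.le⟩), e]
    · simp only [if_neg n, if_neg (nA x (sB ⟨⟨m, fun k => n (OC k)⟩, e.ge⟩)), e]
  have ev : ∀ᶠ z in 𝓝 x, z ∈ C → x ∈ C ∧ u z = u x := by
    by_cases c : x ∈ C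
    · exact (eventually_nhdsWithin_iff.1 (h c).2).mono fun z k m => ⟨c, k m⟩
    · exact mem_of_superset (hC.isOpen_compl.mem_nhds c) fun z k m => (k m).elim
  by_cases o : x ∈ O
  · have e : ∀ᶠ z in 𝓝 x, (if z ∈ C then u z else if z ∈ A then a else b) = u x := by
      filter_upwards [ev, hO.mem_nhds o] with z k m
      rw [if_pos (OC m), (k (OC m)).2]
    exact (h (OC o)).1.imp (fun k => by rwa [k] at e) fun k => by rwa [k] at e
  refine (Fo x m o).imp (fun k => ?_) fun k => ?_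
  · filter_upwards [ev, oA.mem_nhds (sA ⟨⟨m, o⟩, k⟩)] with z e i
    by_cases c : z ∈ C
    · rw [if_pos c, (e c).2]
      exact (h (e c).1).1.resolve_right fun j => (ab.trans_le (j ▸ FC x m (e c).1 ▸ k)).false
    · rw [if_neg c, if_pos i]
  · filter_upwards [ev, oB.mem_nhds (sB ⟨⟨m, o⟩, k⟩)] with z e i
    by_cases c : z ∈ C
    · rw [if_pos c, (e c).2]
      exact (h (e c).1).1.resolve_left fun j => (ab.trans_le (j ▸ FC x m (e c).1 ▸ k)).false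
    · rw [if_neg c, if_neg (nA z i)]

theorem vv_c : Continuous vv := by
  unfold vv
  fun_prop

theorem bx_open (a b c d r : ℝ) : IsOpen (Box a b c d r) :=
  (isOpen_Ioo.preimage continuous_fst).inter ((isOpen_Ioo.preimage vv_c).inter
    (isOpen_lt (f := fun p : R4 => ‖p.2.2‖) (by fun_prop) continuous_const))

theorem cb_cpt (T δ R w : ℝ) : IsCompact (Cb T δ R w) := by
  have c : IsCompact (Icc (-δ) (T + δ) ×ˢ Icc (R - 23 / 8 * w) (R + 31 / 8 * w) ×ˢ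
      Metric.closedBall (0 : ℝ × ℝ) 5) :=
    isCompact_Icc.prod (isCompact_Icc.prod (isCompact_closedBall _ _))
  have := c.image (f := fun p : R4 => ((p.1, p.2.1 - p.1, p.2.2) : R4)) (by fun_prop)
  refine this.of_isClosed_subset ?_ fun p m => ⟨(p.1, vv p, p.2.2), ⟨m.1, m.2.1,
    mem_closedBall_zero_iff.2 m.2.2⟩, by simp [vv]⟩
  exact (isClosed_Icc.preimage continuous_fst).inter ((isClosed_Icc.preimage vv_c).inter
    (isClosed_le (f := fun p : R4 => ‖p.2.2‖) (by fun_prop) continuous_const))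

theorem cl_lo {R w v : ℝ} (h : v ≤ R - 11 / 4 * w) : cl R w v = R - 11 / 4 * w :=
  max_eq_left (min_le_of_left_le h)

theorem cl_hi {R w v : ℝ} (w0 : 0 < w) (h : R + 15 / 4 * w ≤ v) : cl R w v = R + 15 / 4 * w := by
  rw [cl, min_eq_right h, max_eq_right (by linarith)]

/-- **VH.** -/
theorem vh : VH := by
  classical
  intro g D Xf J b T δ R w U Ψ j δ1 δ2 W τ V d f l hS hδ tw WD L cf fj fo H
  have w0 := (hS true).1.pos.2.2
  set K := KV W τ V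
  have c1 : ∀ σ, Cb (T σ) δ2 R w ⊆ Cb (T σ) δ1 R w := fun σ p m =>
    ⟨⟨by linarith [m.1.1, hδ.2], by linarith [m.1.2, hδ.2]⟩, m.2⟩
  have cD : ∀ σ, Cb (T σ) δ2 R w ⊆ Dm (T σ) (δ σ) R w := fun σ p m =>
    ⟨⟨by linarith [m.1.1, hδ.2, (hS σ).2], by linarith [m.1.2, hδ.2, (hS σ).2]⟩,
      ⟨by linarith [m.2.1.1, show vv p = p.1 + p.2.1 from rfl],
        by linarith [m.2.1.2, show vv p = p.1 + p.2.1 from rfl]⟩, by linarith [m.2.2]⟩
  choose h li sh mp using fun σ => P354YO.exists_inv (hS σ).1.pull.open' (hS σ).1.pull.smooth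
    (hS σ).1.inj (hS σ).1.pull.inj
  let I : Bool → Set R4 := fun σ =>
    Box (-δ2) (T σ + δ2) (R - 23 / 8 * w) (R + 31 / 8 * w) 5
  have IC : ∀ σ, I σ ⊆ Cb (T σ) δ2 R w := fun σ p m =>
    ⟨Ioo_subset_Icc_self m.1, Ioo_subset_Icc_self m.2.1, m.2.2.le⟩
  let C : Set R4 := ⋃ σ, Ψ σ '' Cb (T σ) δ2 R w
  let O : Set R4 := ⋃ σ, Ψ σ '' I σ
  have cC : ∀ σ, IsClosed (Ψ σ '' Cb (T σ) δ2 R w) := fun σ => ((cb_cpt _ _ _ _).image_of_continuousOn
    ((hS σ).1.pull.smooth.continuousOn.mono (cD σ))).isClosed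
  have hC : IsClosed C := isClosed_iUnion_of_finite cC
  have hO : IsOpen O := isOpen_iUnion fun σ => isOpen_iff_mem_nhds.2 fun _ ⟨p, m, e⟩ =>
    e ▸ mp σ p (cD σ (IC σ m)) ▸ image_mem_map ((bx_open _ _ _ _ _).mem_nhds m)
  have OC : O ⊆ C := iUnion_mono fun σ => image_mono (IC σ)
  have mC : ∀ σ, ∀ p ∈ Cb (T σ) δ2 R w, Ψ σ p ∈ C := fun σ p m => mem_iUnion.2 ⟨σ, p, m, rfl⟩
  let v : R4 → ℝ := fun z =>
    if z ∈ Ψ true '' Cb (T true) δ2 R w then vv (h true z) else vv (h false z)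
  have hv : ∀ σ, ∀ p ∈ Cb (T σ) δ2 R w, v (Ψ σ p) = vv p := fun σ p m => by
    by_cases k : Ψ σ p ∈ Ψ true '' Cb (T true) δ2 R w
    · obtain ⟨q, a, e⟩ := id k
      simp only [v, if_pos k]
      rw [← e, li _ q (cD _ a)]
      cases σ
      · exact tw.same q a p m e
      · rw [(hS true).1.inj (cD _ a) (cD _ m) e]
    · cases σ
      · simp only [v, if_neg k, li _ p (cD _ m)]
      · exact (k ⟨p, m, rfl⟩).elim
  have cv : ContinuousOn v C := by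
    have k : ∀ σ, ContinuousOn v (Ψ σ '' Cb (T σ) δ2 R w) := fun σ =>
      (vv_c.comp_continuousOn
        ((sh σ).continuousOn.mono (image_mono (cD σ)))).congr (by
          rintro _ ⟨p, m, rfl⟩
          simp only [hv σ p m, Function.comp_apply, li σ p (cD σ m)])
    refine ((k true).union_of_isClosed (k false) (cC _) (cC _)).mono fun x m => ?_
    obtain ⟨σ, m⟩ := mem_iUnion.1 m
    cases σ
    · exact .inr m
    · exact .inl m
  have ccl : Continuous (cl R w) := by unfold cl; fun_prop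
  have p0 : ∀ σ, ∀ p ∈ Cb (T σ) δ2 R w, Ψ σ p ∈ K → 0 ≤ p.1 := fun σ p m k =>
    not_lt.1 fun a => (tw.neg σ p m a).not_ge k.2.1
  have sw : ∀ σ, ∀ p ∈ Cb (T σ) δ2 R w, Ψ σ p ∈ K → ∃ σ', ∃ p' : R4, p'.1 ∈ Ico 0 (T σ' + δ2) ∧
      vv p' = vv p ∧ ‖p'.2.2‖ ≤ 2 ∧ Ψ σ' p' = Ψ σ p := fun σ p m k => by
    by_cases a : ‖p.2.2‖ ≤ 2
    · exact ⟨σ, p, ⟨p0 σ p m k, (H σ p (c1 σ m) k).1⟩, rfl, a, rfl⟩
    obtain ⟨q, q1, q2, q3, q4⟩ := tw.cov σ p (cD σ m) (p0 σ p m k) (.inr m) (by linarith)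
    exact ⟨!σ, q, ⟨q1.1, (H _ q ⟨⟨by linarith [q1.1, hδ.1, hδ.2], q1.2⟩, q2 ▸ m.2.1,
      by linarith⟩ (q4 ▸ k)).1⟩, q2, q3, q4⟩
  have bd : ∀ x ∈ K, x ∈ C → x ∉ O → v x ≤ R - 11 / 4 * w ∨ R + 15 / 4 * w ≤ v x := by
    intro x k m' n
    obtain ⟨σ, p, m, rfl⟩ := mem_iUnion.1 m'
    obtain ⟨σ', q, q1, q2, q3, q4⟩ := sw σ p m k
    rw [hv σ p m]
    by_contra! a
    exact n (mem_iUnion.2 ⟨σ', q, ⟨⟨by linarith [q1.1, hδ.1], q1.2⟩,
      show vv q ∈ _ from q2 ▸ ⟨by linarith [a.1], by linarith [a.2]⟩, by linarith⟩, q4⟩)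
  let E : R4 → AddCircle (13 / 2 * w) := fun z =>
    ((if z ∈ C then cl R w (v z) else R - 11 / 4 * w : ℝ) : AddCircle (13 / 2 * w))
  have e01 : ((R + 15 / 4 * w : ℝ) : AddCircle (13 / 2 * w)) = (R - 11 / 4 * w : ℝ) := by
    rw [← AddCircle.coe_add_period (13 / 2 * w) (R - 11 / 4 * w)]
    exact congrArg _ (by ring)
  have Eo : ∀ x ∈ K, x ∉ O → E x = (R - 11 / 4 * w : ℝ) := fun x k n => by
    by_cases m : x ∈ C
    · simp only [E, if_pos m]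
      rcases bd x k m n with a | a
      · rw [cl_lo a]
      · rw [cl_hi w0 a, e01]
    · simp only [E, if_neg m]
  have EC : ∀ x ∈ C, E x = (cl R w (v x) : ℝ) := fun x m => by simp only [E, if_pos m]
  have cE : ContinuousOn E K := by
    refine ((((AddCircle.continuous_mk' _).comp ccl).comp_continuousOn cv).congr EC).union_of_isClosed
      (continuousOn_const.congr fun x (m : x ∈ K \ O) => Eo x m.1 m.2) hC
      (L.cpt.diff hO).isClosed |>.mono fun x k => ?_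
    by_cases o : x ∈ O
    · exact .inl (OC o)
    · exact .inr ⟨k, o⟩
  have f0 : ∀ σ, ∀ z : X3, ((0, z) : R4) ∈ Cb (T σ) δ2 R w → Ψ σ (0, z) = pt 0 (j σ z) ∧
      f (j σ z) = cl R w (vv (0, z)) := fun σ z m => by
    have a : z ∈ Win R w 6 := ⟨by simpa using (cD σ m).2.1, (cD σ m).2.2⟩
    exact ⟨(hS σ).1.bot z a, by simpa [vv] using fj σ z a⟩
  have fC : ∀ y, pt 0 y ∈ K → pt 0 y ∈ C → f y = cl R w (v (pt 0 y)) := fun y k m' => by
    obtain ⟨σ, ⟨t, z⟩, m, e⟩ := mem_iUnion.1 m'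
    obtain rfl : t = 0 := le_antisymm (not_lt.1 fun a =>
      ((hS σ).1.up _ (cD σ m) a).ne' (congrArg Prod.fst e)) (p0 σ _ m (e ▸ k))
    have a := congrArg xs ((f0 σ z m).1.symm.trans e)
    rw [P354UR.xs_pt, P354UR.xs_pt] at a
    rw [← e, hv σ _ m, ← a, (f0 σ z m).2]
  have fn : ∀ y, pt 0 y ∈ K → pt 0 y ∉ C → f y = R - 11 / 4 * w ∨ f y = R + 15 / 4 * w :=
    fun y k n => fo y (P354UR.xs_pt 0 y ▸ L.ne _ k.1) fun σ ⟨z, m, e⟩ => by
      have a : ((0, z) : R4) ∈ Cb (T σ) δ2 R w :=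
        ⟨⟨by linarith [hδ.1], by linarith [hδ.1, (hS σ).1.pos.1]⟩,
          ⟨by simp only [vv]; linarith [m.1.1], by simp only [vv]; linarith [m.1.2]⟩,
          by linarith [m.2]⟩
      exact n (e ▸ (f0 σ z a).1 ▸ mC σ _ a)
  obtain ⟨r, cr, mr, hr⟩ := retr L
  have r0 : ∀ x ∈ K, pt 0 (xs (r (0, x))) = r (0, x) := fun x m =>
    Prod.ext (hr x m).2.1.symm rfl
  have m0 : ∀ x ∈ K, r (0, x) ∈ K := fun x m => mr ⟨⟨le_rfl, zero_le_one⟩, m⟩
  obtain ⟨F, cF, FE, Ff⟩ := lift_ex cr mr (fun x m => (hr x m).1) cE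
    (f := fun x => f (xs (r (0, x)))) (cf.comp (P354UR.xs_cd.continuous.comp_continuousOn
      (cr.comp (continuousOn_const.prodMk continuousOn_id) fun x m =>
        ⟨⟨le_rfl, zero_le_one⟩, m⟩)) fun x m => L.ne _ (m0 x m).1) fun x m => by
    have k := (r0 x m).symm ▸ m0 x m
    by_cases c : r (0, x) ∈ C
    · rw [EC _ c, fC _ k ((r0 x m).symm ▸ c), r0 x m]
    · rw [Eo _ (m0 x m) fun o => c (OC o)]
      rcases fn _ k ((r0 x m).symm ▸ c) with a | a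
      · rw [a]
      · rw [a, e01]
  have Fy : ∀ y, pt 0 y ∈ K → F (pt 0 y) = f y := fun y k => by
    rw [Ff _ k fun s _ => (hr _ k).2.2 rfl s, (hr _ k).2.2 rfl 0, P354UR.xs_pt]
  have FC : ∀ x ∈ K, x ∈ C → F x = cl R w (v x) := fun x k m' => by
    obtain ⟨σ, p, m, rfl⟩ := mem_iUnion.1 m'
    have a := p0 σ p m k
    have ry := (H σ p (c1 σ m) k).2
    have e : ∀ s, vv (s, vv p - s, p.2.2) = vv p := fun s => by simp [vv]
    have mc : ∀ s ∈ Icc 0 p.1, (s, vv p - s, p.2.2) ∈ Cb (T σ) δ2 R w := fun s i =>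
      ⟨⟨by linarith [i.1, hδ.1], i.2.trans m.1.2⟩, (e s).symm ▸ m.2.1, m.2.2⟩
    have k1 := (AddCircle.isCoveringMap_coe (13 / 2 * w)).constOn_of_comp isPreconnected_Icc
      (g := fun s => F (Ψ σ (s, vv p - s, p.2.2))) (cF.comp
        ((hS σ).1.pull.smooth.continuousOn.comp (by fun_prop) fun s i => cD σ (mc s i)) ry)
      (fun s i t i' => by
        rw [FE _ (ry s i), FE _ (ry t i'), EC _ (mC σ _ (mc s i)), EC _ (mC σ _ (mc t i')),
          hv σ _ (mc s i), hv σ _ (mc t i'), e, e]) ⟨a, le_rfl⟩ ⟨le_rfl, a⟩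
    have z := f0 σ _ (mc 0 ⟨le_rfl, a⟩)
    have k2 : ((p.1, vv p - p.1, p.2.2) : R4) = p := by simp [vv]
    simp only [k2] at k1
    rw [k1, z.1, Fy _ (z.1 ▸ ry 0 ⟨le_rfl, a⟩), z.2, e, hv σ p m]
  have Fo : ∀ x ∈ K, x ∉ O → F x ≤ R - 11 / 4 * w ∨ R + 15 / 4 * w ≤ F x := fun x k n => by
    by_contra! a
    have : Fact (0 < 13 / 2 * w) := ⟨by linarith⟩
    exact a.1.ne' ((AddCircle.coe_eq_coe_iff_of_mem_Ico (a := R - 11 / 4 * w)
      ⟨a.1.le, by linarith [a.2]⟩ ⟨le_rfl, by linarith⟩).1 ((FE x k).trans (Eo x k n)))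
  obtain ⟨u, uC, un, ul⟩ := sep2 L.cpt hC hO OC (by linarith) cF FC Fo
  refine ⟨u, fun y k => ?_, fun σ p p1 p2 p3 => ?_, fun x k n => ul x k fun m => ?_⟩
  · by_cases c : pt 0 y ∈ C
    · rw [uC _ c, fC y k c]
    · rw [un _ k c (Fy y k ▸ fn y k c), Fy y k]
  · filter_upwards [(bx_open _ _ _ _ _).mem_nhds
      (show p ∈ I σ from ⟨⟨by linarith [p1.1, hδ.1], p1.2⟩, p2, p3⟩)] with q a
    rw [uC _ (mC σ q (IC σ a)), hv σ q (IC σ a)]
  · have a : v x < R - 11 / 4 * w ∨ R + 15 / 4 * w < v x := by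
      obtain ⟨σ, p, i, rfl⟩ := mem_iUnion.1 m
      obtain ⟨σ', q, q1, q2, q3, q4⟩ := sw σ p i k
      rw [hv σ p i]
      by_contra! a
      exact n σ' ⟨q, ⟨Ico_subset_Icc_self q1, q2 ▸ a, q3⟩, q4⟩
    rcases a with a | a
    · exact ⟨.inl (cl_lo a.le), ((cv x m).eventually (gt_mem_nhds a)).mono fun z e =>
        (cl_lo e.le).trans (cl_lo a.le).symm⟩
    · exact ⟨.inr (cl_hi w0 a.le), ((cv x m).eventually (lt_mem_nhds a)).mono fun z e =>
        (cl_hi w0 e.le).trans (cl_hi w0 a.le).symm⟩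

end Vale.Agent.P354LN
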