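import Vale.Agent.P354LN.Mo
import Vale.Agent.P354YM.Props

/-!
LENS: a global time function with compact sublevel sets on the part r ≥ r0 of a development, and
lenses around compact sets.
-/

open scoped ContDiff
open Set Filter Topology

noncomputable section

namespace Vale.Agent.P354LN

open Vale.Agent.P354n (R4)
open Vale.Agent.P354I (X Dat rm rp)
open Vale.Agent.P354R (Met)
open Vale.Agent.P354XE
open Vale.Agent.P354YM
open Vale.Agent.P354YR (kap_ok)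

/-- The functions exp (ka t) of the ends, a cut off, and the part r ≥ r0. -/
def vs (M a : ℝ) (σ : Bool) (P : R4) : ℝ := nv M a σ P / mf M a (kr M a P)
def chi (θ x : ℝ) : ℝ := Real.smoothTransition ((x - θ) / θ)
def Sr (M a r1 r0 : ℝ) : Set R4 := {P ∈ D0 M a r1 | r0 ≤ kr M a P}

/-- The local time functions. -/
structure Hy (M a r1 r0 r2 θ : ℝ) (g : Tw) (D : Set R4) (Xf : R4 → R4) (τ : Bool → R4 → ℝ) :
    Prop where
  lor : Lor g D Xf
  sub : D0 M a r1 ⊆ D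
  box : ∀ P ∈ Bx M a r1 θ, Tm g Xf (fun x => x.1) P
  tt : ∀ σ, ∀ P ∈ D0 M a r1, θ ≤ vs M a σ P → vs M a σ P ≤ 2 * θ →
    Tm g Xf ((fun x => x.1) ∘ ci M a σ) P
  te : ∀ σ, ∀ P ∈ Sr M a r1 r0, θ ≤ vs M a σ P → Tm g Xf (τ σ) P
  cp : ∀ σ c, ∃ K, IsCompact K ∧ K ⊆ Sr M a r1 r0 ∧
    ∀ P ∈ Sr M a r1 r0, θ ≤ vs M a σ P → τ σ P ≤ c → P ∈ K
  tr : ∀ P ∈ Sr M a r1 r0, kr M a P ≤ r2 → Tm g Xf (fun x => -kr M a x) P

variable {M a r1 r0 r2 s δ θ : ℝ} {g : Tw} {D : Set R4} {Xf : R4 → R4} {τ : Bool → R4 → ℝ}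
  {σ : Bool} {P : R4}

theorem chi_cd : ContDiff ℝ 1 (chi θ) :=
  Real.smoothTransition.contDiff.comp ((contDiff_id.sub contDiff_const).div_const _)

theorem chi_mono (h : 0 < θ) : Monotone (chi θ) := fun _ _ k =>
  Real.smoothTransition.monotone (by gcongr)

theorem chi_zero (h : 0 < θ) {x : ℝ} (k : x ≤ θ) : chi θ x = 0 :=
  Real.smoothTransition.zero_of_nonpos (div_nonpos_of_nonpos_of_nonneg (sub_nonpos.2 k) h.le)

theorem chi_one (h : 0 < θ) {x : ℝ} (k : 2 * θ ≤ x) : chi θ x = 1 :=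
  Real.smoothTransition.one_of_one_le (by rw [le_div_iff₀ h]; linarith)

theorem chi_lt (h : 0 < θ) {x : ℝ} (k : x < 2 * θ) : chi θ x < 1 :=
  Real.smoothTransition.lt_one_of_lt_one (by rw [div_lt_one h]; linarith)

theorem chi_nn (x : ℝ) : 0 ≤ chi θ x := Real.smoothTransition.nonneg _
theorem chi_le (x : ℝ) : 0 ≤ 1 - chi θ x := sub_nonneg.2 (Real.smoothTransition.le_one _)

section
variable (ha : a ≠ 0) (hM : |a| < M) (h1 : rm M a < r1) (h0 : 0 < θ)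
include ha hM h1

theorem nv_cont (hP : P ∈ D0 M a r1) : ContinuousAt (nv M a σ) P :=
  continuousAt_fst.add ((kx_cont kap_ok ha hM hP.1).const_mul _)

theorem vs_cont (hP : P ∈ D0 M a r1) : ContinuousAt (vs M a σ) P :=
  (nv_cont ha hM h1 hP).div ((mf_cont hM).continuousAt.comp (kr_cont kap_ok ha hM hP.1))
    (mf_pos (h1.trans hP.2.2)).ne'

/-- The inverse chart near a point of an end. -/
theorem ev_ci (hP : P ∈ D0 M a r1) (k : 0 < nv M a σ P) : ∀ᶠ x in 𝓝 P,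
    rd (ci M a σ x) = kr M a x ∧ vs M a σ x = Real.exp (ka M a * (ci M a σ x).1) := by
  filter_upwards [xs_cont.continuousAt.eventually_ne hP.1, continuousAt_const.eventually_lt
    (kr_cont kap_ok ha hM hP.1) (h1.trans hP.2.2),
    continuousAt_const.eventually_lt (nv_cont ha hM h1 hP) k] with x b1 b2 b3
  obtain ⟨-, c2, c3⟩ := ci_spec kap_ok ha hM b1 b2 b3
  have a6 := (ch_spec kap_ok ha hM σ (c3 ▸ b2 : rm M a < rd (ci M a σ x))).2.2.2.2.2
  rw [c2, c3] at a6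
  exact ⟨c3, by rw [vs, a6, mul_div_cancel_left₀ _ (mf_pos b2).ne']⟩

include h0

theorem en_of (hP : P ∈ D0 M a r1) (k : θ ≤ vs M a σ P) : ci M a σ P ∈ En M a r1 θ ∧
    ch M a σ (ci M a σ P) = P ∧ 0 < nv M a σ P := by
  have m := mf_pos (h1.trans hP.2.2)
  have j := (le_div_iff₀ m).1 k
  obtain ⟨e1, e2, -⟩ := mem_En kap_ok ha hM h1 h0 hP j
  exact ⟨e1, e2, (mul_pos h0 m).trans_le j⟩

omit ha hM h0 in
theorem vs_le {c : ℝ} (hP : P ∈ D0 M a r1) (k : ∀ σ, vs M a σ P ≤ c) :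
    P.1 + |kx M a P| ≤ c * mf M a (kr M a P) := by
  have m := mf_pos (h1.trans hP.2.2)
  have a1 := (div_le_iff₀ m).1 (k true)
  have a2 := (div_le_iff₀ m).1 (k false)
  simp only [nv, cond] at a1 a2
  rcases abs_choice (kx M a P) with j | j <;> linarith

variable (H : Hy M a r1 r0 r2 θ g D Xf τ)
include H

theorem mo_chi (hP : P ∈ D0 M a r1) : Mo (Ca g Xf P) (fun x => chi θ (vs M a σ x)) P := by
  have c := vs_cont (σ := σ) ha hM h1 hP
  rcases lt_or_ge (vs M a σ P) θ with k | k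
  · exact .ev 0 ((c.eventually (gt_mem_nhds k)).mono fun x j => chi_zero h0 j.le)
  rcases lt_or_ge (2 * θ) (vs M a σ P) with j | j
  · exact .ev 1 ((c.eventually (lt_mem_nhds j)).mono fun x j => chi_one h0 j.le)
  refine ((ms_of H.lor (H.sub hP) (H.tt σ P hP k j)).mo.comp
    (φ := fun t => chi θ (Real.exp (ka M a * t))) (chi_cd.comp (by fun_prop)) fun x y i =>
      chi_mono h0 (by have := ka_pos hM; gcongr)).congr ?_
  filter_upwards [ev_ci ha hM h1 hP (en_of ha hM h1 h0 hP k).2.2] with x i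
  rw [i.2]; rfl

theorem mo_end (hP : P ∈ Sr M a r1 r0) :
    Mo (Ca g Xf P) (fun x => chi θ (vs M a σ x) * Real.exp (τ σ x)) P ∧ (2 * θ ≤ vs M a σ P →
      Ms (Ca g Xf P) (fun x => chi θ (vs M a σ x) * Real.exp (τ σ x)) P) := by
  have m := mo_chi (σ := σ) ha hM h1 h0 H hP.1
  have e := fun k => (ms_of H.lor (H.sub hP.1) (H.te σ P hP k)).exp
  refine ⟨?_, fun k => m.mul' (e (by linarith)) (by rw [chi_one h0 k]; exact one_pos)
    (Real.exp_pos _).le⟩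
  rcases lt_or_ge (vs M a σ P) θ with k | k
  · exact .ev 0 (((vs_cont ha hM h1 hP.1).eventually (gt_mem_nhds k)).mono fun x j => by
      rw [chi_zero h0 j.le, zero_mul])
  · exact m.mul (e k).mo (chi_nn _) (Real.exp_pos _).le

theorem mo_box (hP : P ∈ D0 M a r1) : Mo (Ca g Xf P) (fun x => -((1 - chi θ (vs M a true x)) *
    (1 - chi θ (vs M a false x)) * Real.exp (-x.1))) P ∧ ((∀ σ, vs M a σ P < 2 * θ) →
      Ms (Ca g Xf P) (fun x => -((1 - chi θ (vs M a true x)) *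
        (1 - chi θ (vs M a false x)) * Real.exp (-x.1))) P) := by
  have n : ∀ σ, Mo (fun w => Ca g Xf P (-w)) (fun x => 1 - chi θ (vs M a σ x)) P := fun σ =>
    (Mo.ev 1 (.of_forall fun _ => rfl)).add ((mo_chi ha hM h1 h0 H hP).neg fun _ => id)
  have n2 := (n true).mul (n false) (chi_le _) (chi_le _)
  have e : (∀ σ, vs M a σ P ≤ 2 * θ) → Ms (fun w => Ca g Xf P (-w)) (fun x => Real.exp (-x.1)) P :=
    fun k => ((ms_of H.lor (H.sub hP) (H.box P ⟨hP, .inr (vs_le h1 hP k)⟩)).neg fun _ => id).exp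
  refine ⟨?_, fun k => (n2.mul' (e fun σ => (k σ).le) (mul_pos (sub_pos.2 (chi_lt h0 (k _)))
    (sub_pos.2 (chi_lt h0 (k _)))) (Real.exp_pos _).le).neg fun w => by rw [neg_neg]; exact id⟩
  by_cases k : ∀ σ, vs M a σ P ≤ 2 * θ
  · exact (n2.mul (e k).mo (mul_nonneg (chi_le _) (chi_le _)) (Real.exp_pos _).le).neg
      fun w => by rw [neg_neg]; exact id
  push Not at k
  obtain ⟨σ, k⟩ := k
  refine .ev 0 (((vs_cont ha hM h1 hP).eventually (lt_mem_nhds k)).mono fun x j => ?_)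
  cases σ <;> simp [chi_one h0 j.le]

/-- A global time function with compact sublevel sets. -/
theorem glob (h2 : r1 < r0) : ∃ t : R4 → ℝ, (∀ P ∈ Sr M a r1 r0, Ms (Ca g Xf P) t P ∧ -1 ≤ t P) ∧
    ∀ c, ∃ K, IsCompact K ∧ K ⊆ Sr M a r1 r0 ∧ ∀ P ∈ Sr M a r1 r0, t P ≤ c → P ∈ K := by
  have f0 : ∀ σ P, 0 ≤ chi θ (vs M a σ P) * Real.exp (τ σ P) := fun σ P =>
    mul_nonneg (chi_nn _) (Real.exp_pos _).le
  have b0 : ∀ P ∈ Sr M a r1 r0, (1 - chi θ (vs M a true P)) * (1 - chi θ (vs M a false P)) *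
      Real.exp (-P.1) ≤ 1 := fun P hP => mul_le_one₀ (mul_le_one₀ (sub_le_self _ (chi_nn _))
        (chi_le _) (sub_le_self _ (chi_nn _))) (Real.exp_pos _).le
          (Real.exp_le_one_iff.2 (neg_nonpos.2 hP.1.2.1))
  refine ⟨fun x => chi θ (vs M a true x) * Real.exp (τ true x) + (chi θ (vs M a false x) *
    Real.exp (τ false x) + -((1 - chi θ (vs M a true x)) * (1 - chi θ (vs M a false x)) *
      Real.exp (-x.1))), fun P hP => ⟨?_, by linarith [f0 true P, f0 false P, b0 P hP]⟩, fun c => ?_⟩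
  · obtain ⟨a1, a2⟩ := mo_end (σ := true) ha hM h1 h0 H hP
    obtain ⟨b1, b2⟩ := mo_end (σ := false) ha hM h1 h0 H hP
    obtain ⟨c1, c2⟩ := mo_box ha hM h1 h0 H hP.1
    rcases le_or_gt (2 * θ) (vs M a true P) with k | k
    · exact (a2 k).add (b1.add c1)
    rcases le_or_gt (2 * θ) (vs M a false P) with j | j
    · exact a1.add' ((b2 j).add c1)
    · exact a1.add' (b1.add' (c2 fun σ => by cases σ <;> assumption))
  choose K k1 k2 k3 using fun σ => H.cp σ c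
  refine ⟨_, (box_cpt kap_ok ha hM (h1.trans h2) (2 * θ)).union ((k1 true).union (k1 false)),
    union_subset (fun P hP => ⟨⟨hP.1, hP.2.1, h2.trans_le hP.2.2.1⟩, hP.2.2.1⟩)
      (union_subset (k2 _) (k2 _)), fun P hP k => ?_⟩
  have key : ∀ σ, 2 * θ < vs M a σ P → Real.exp (τ σ P) ≤ c + 1 → P ∈ K σ := fun σ i j =>
    k3 σ P hP (by linarith) (by linarith [Real.add_one_le_exp (τ σ P)])
  have b1 := b0 P hP
  rcases lt_or_ge (2 * θ) (vs M a true P) with i | i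
  · refine .inr (.inl (key _ i ?_))
    simp only [chi_one h0 i.le] at k b1
    linarith [f0 false P]
  rcases lt_or_ge (2 * θ) (vs M a false P) with j | j
  · refine .inr (.inr (key _ j ?_))
    simp only [chi_one h0 j.le] at k b1
    linarith [f0 true P]
  exact .inl ⟨hP.1.1, hP.1.2.1, hP.2, vs_le h1 hP.1 fun σ => by cases σ <;> assumption⟩

end

/-- The developments have the local time functions. -/
theorem hy (B : Bs M a r1 r0 r2 s δ) : Evt M a r1 s δ fun P => 0 < P.θ ∧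
    ∀ d (T : Tg), T.Is P d → ∃ τ, Hy M a r1 r0 r2 P.θ T.g T.D T.Xf τ := by
  obtain ⟨ha, hM, ⟨h1, h2, h3, h4⟩, hs, hδ⟩ := B
  have m2 := mf_pos (M := M) (a := a) (r := r2) (by linarith)
  obtain ⟨M0, m0, -, p2, -⟩ := P354XA.hor hM
  refine ⟨√(rp M a - r2) / mf M a r2, div_pos (Real.sqrt_pos.2 (sub_pos.2 h4)) m2, fun θ hθ => ?_⟩
  obtain ⟨R0, hR⟩ := P354XA.lid M a s δ r1 r0 θ hM hs hδ h1 h2 (h3.trans h4) hθ.1
  refine ⟨max R0 (2 * M), fun R k => ⟨0, fun N _ => ?_⟩⟩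
  obtain ⟨e0, e1, he⟩ := hR R ((le_max_left _ _).trans k)
  have R2 : 2 * M ≤ R := (le_max_right _ _).trans k
  obtain ⟨e2, e3, hr⟩ := tm_rd hM (h1.trans h2) h4
  refine ⟨min e0 e2, lt_min e1 e3, fun ε hε => ⟨hθ.1, fun d T h => ?_⟩⟩
  have Q := fun σ => ch_pull kap_ok ha hM σ h.lor.isOpen h.lor.met
  have m : ∀ σ, ∀ p ∈ En M a r1 θ, ch M a σ p ∈ T.D := fun σ p hp =>
    h.sub (mem_D0 kap_ok ha hM h1 hp)
  have yy : ∀ σ, ∀ p ∈ En M a r1 θ, pb (ch M a σ) T.g p (T.Y σ p) (T.Y σ p) < 0 := fun σ p hp => by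
    rw [pb, h.ori σ p hp]
    exact h.lor.tl _ (m σ p hp)
  have L := fun σ => he ε ⟨hε.1, hε.2.trans (min_le_left _ _)⟩ N _ _ _ _ _ _
    (P354RC.k2.1 _ _ _ _ _ (Q σ)) (fun p hp => ⟨h1.trans hp.1, m σ p hp⟩) (yy σ) (h.ends σ)
  choose τ t1 t2 using fun σ => (L σ).2.2.2
  have tr : ∀ σ f, ∀ P ∈ D0 M a r1, θ ≤ vs M a σ P →
      Tm (pb (ch M a σ) T.g) (T.Y σ) f (ci M a σ P) → Tm T.g T.Xf (f ∘ ci M a σ) P :=
    fun σ f P hP k j => by
      obtain ⟨a1, a2, -⟩ := en_of ha hM h1 hθ.1 hP k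
      simpa only [a2] using tm_ch kap_ok ha hM (h1.trans a1.1) (h.ori σ _ a1) j
  have er : ∀ σ, ∀ P ∈ Sr M a r1 r0, θ ≤ vs M a σ P → ci M a σ P ∈ Er M a r1 r0 θ :=
    fun σ P hP k => by
      obtain ⟨a1, -, a3⟩ := en_of ha hM h1 hθ.1 hP.1 k
      exact ⟨a1, (ev_ci ha hM h1 hP.1 a3).self_of_nhds.1 ▸ hP.2⟩
  refine ⟨fun σ => τ σ ∘ ci M a σ, h.lor, h.sub, fun P hP => ⟨contDiffAt_fst,
    by rw [fderiv_fst]; exact (h.box P hP).1, by rw [fderiv_fst]; exact (h.box P hP).2⟩,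
    fun σ P hP k j => ?_, fun σ P hP k => tr σ _ P hP.1 k (t1 σ _ (er σ P hP k)), fun σ c =>
      ⟨ch M a σ '' _, (t2 σ c).image_of_continuousOn fun p hp =>
        (ch_spec kap_ok ha hM σ (h1.trans hp.1.1.1)).1.continuousAt.continuousWithinAt, ?_,
      fun P hP k j => ⟨_, ⟨er σ P hP k, j⟩, (en_of ha hM h1 hθ.1 hP.1 k).2.1⟩⟩, fun P hP k => ?_⟩
  · obtain ⟨a1, -, a3⟩ := en_of ha hM h1 hθ.1 hP k
    exact tr σ _ P hP k ((L σ).2.1 _ a1 ((ev_ci ha hM h1 hP a3).self_of_nhds.2 ▸ j))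
  · rintro _ ⟨p, hp, rfl⟩
    exact ⟨mem_D0 kap_ok ha hM h1 hp.1.1,
      (ch_spec kap_ok ha hM σ (h1.trans hp.1.1.1)).2.2.2.1 ▸ hp.1.2⟩
  · obtain ⟨σ, j⟩ : ∃ σ, θ ≤ vs M a σ P := by
      by_contra! j
      have a1 := vs_le h1 hP.1 fun σ => (j σ).le
      have a2 : mf M a (kr M a P) ≤ mf M a r2 := Real.rpow_le_rpow
        (by linarith [hP.1.2.2]) (by linarith) (div_nonneg m0 (by linarith))
      have a3 := (lt_div_iff₀ m2).1 hθ.2
      have a4 := mul_le_mul_of_nonneg_left a2 hθ.1.le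
      have a5 := hP.1.2.1
      have a6 := abs_nonneg (kx M a P)
      have a7 := (Real.lt_sqrt a5).1 (show P.1 < √(rp M a - r2) by linarith)
      rw [kr] at k
      nlinarith [sq_nonneg (kx M a P)]
    obtain ⟨a1, -, a3⟩ := en_of ha hM h1 hθ.1 hP.1 j
    have a4 := ev_ci ha hM h1 hP.1 a3
    have a5 := a4.self_of_nhds.1
    have a6 : rd (ci M a σ P) ≤ R + 2 := by linarith
    refine (tr σ _ P hP.1 j (hr ε ⟨hε.1, hε.2.trans (min_le_right _ _)⟩ N _ _ _ _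
      (P354RC.k2.1 _ _ _ _ _ (Q σ)) ⟨h1.trans a1.1, m σ _ a1⟩ (a5 ▸ hP.2) (a5 ▸ k) (yy σ _ a1)
      ((h.ends σ).near _ a1 a6).2.1 ((L σ).1 _ a1 a6))).congr (c := 0) (a4.mono fun x i => ?_)
    simp only [Function.comp, i.1, zero_add]

/-- **LENS.** -/
theorem lens : LENS := by
  intro M a r1 r0 r2 s δ B
  obtain ⟨θ0, a1, E⟩ := hy B
  obtain ⟨ha, hM, ⟨h1, h2, h3, h4⟩, hs, hδ⟩ := B
  refine ⟨θ0, a1, fun θ hθ => (E θ hθ).imp fun R0 E R hR => (E R hR).imp fun N0 E N hN =>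
    (E N hN).imp fun ε0 E => ⟨E.1, fun ε hε d T hd h A hA sA => ?_⟩⟩
  obtain ⟨τ, H⟩ := (E.2 ε hε).2 d T h
  obtain ⟨t, t1, t2⟩ := glob ha hM h1 hθ.1 H h2
  have kc := fun P => kr_cont (P := P) kap_ok ha hM
  have aS : A ⊆ Sr M a r1 r0 := fun P hP => ⟨(sA P hP).1, h3.le.trans (sA P hP).2⟩
  obtain ⟨c, hc⟩ := hA.bddAbove_image (f := t)
    fun P hP => (t1 P (aS hP)).1.1.continuousAt.continuousWithinAt
  obtain ⟨Λ, L0, hΛ⟩ : ∃ Λ, 0 ≤ Λ ∧ Λ * (r2 - r0) ^ 2 = |c| + 3 :=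
    ⟨(|c| + 3) / (r2 - r0) ^ 2, by positivity, div_mul_cancel₀ _ (pow_pos (sub_pos.2 h3) 2).ne'⟩
  have q0 : ∀ x, 0 ≤ Λ * P354V.sq x := fun x => mul_nonneg L0 (sq_nonneg _)
  have q1 : ∀ x ≤ 0, Λ * P354V.sq x = 0 := fun x k => by simp [P354V.sq, max_eq_right k]
  have ms : ∀ P ∈ Sr M a r1 r0,
      Ms (Ca T.g T.Xf P) (fun x => t x + Λ * P354V.sq (r2 + -kr M a x)) P := fun P hP => by
    refine (t1 P hP).1.add ?_
    rcases lt_or_ge r2 (kr M a P) with k | k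
    · exact .ev 0 (((kc P hP.1.1).eventually (lt_mem_nhds k)).mono fun x j => q1 _ (by linarith))
    · refine (ms_of H.lor (H.sub hP.1) (H.tr P hP k)).mo.comp (φ := fun x => Λ * P354V.sq (r2 + x))
        (contDiff_const.mul (P354V.sq_cd.comp (contDiff_const.add contDiff_id))) fun x y i => ?_
      simp only [P354V.sq]
      gcongr
  obtain ⟨K, k1, k2, k3⟩ := t2 (|c| + 1)
  have wS : ∀ {f V}, ∀ P ∈ KV (T.D ∩ {P | xs P ≠ 0 ∧ r0 < kr M a P}) f V, P ∈ Sr M a r1 r0 :=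
    fun P hP => ⟨⟨hP.1.2.1, hP.2.1, h2.trans hP.1.2.2⟩, hP.1.2.2.le⟩
  refine ⟨T.D ∩ {P | xs P ≠ 0 ∧ r0 < kr M a P}, fun x => t x + Λ * P354V.sq (r2 + -kr M a x),
    |c| + 1, inter_subset_left, ⟨H.lor.mono (H.lor.isOpen.inter (isOpen_iff_mem_nhds.2 fun P hP =>
      (xs_cont.continuousAt.eventually_ne hP.1).and
        (continuousAt_const.eventually_lt (kc P hP.1) hP.2))) inter_subset_left,
      fun P hP => hP.2.1, hd, ?_, fun P hP => (ms P (wS P hP)).tm H.lor hP.1.1, fun y hy =>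
        ⟨H.box _ ⟨(wS _ hy).1, .inl rfl⟩, ?_⟩⟩, fun P hP => ⟨⟨H.sub (sA P hP).1, (sA P hP).1.1,
          h3.trans_le (sA P hP).2⟩, (sA P hP).1.2.1, ?_⟩, fun P hP => wS P hP⟩
  · have cK := k1.of_isClosed_subset (ContinuousOn.preimage_isClosed_of_isClosed
      (fun P hP => (ms P (k2 hP)).1.continuousAt.continuousWithinAt) k1.isClosed
      (isClosed_Iic (a := |c| + 1))) inter_subset_left
    refine (Subset.antisymm (fun P hP => ?_) fun P hP => ?_ : _ = KV _ _ _) ▸ cK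
    · have j := k2 hP.1
      refine ⟨⟨H.sub j.1, j.1.1, j.2.lt_of_ne fun e => ?_⟩, j.1.2.1, hP.2⟩
      have i : t P + Λ * P354V.sq (r2 + -kr M a P) ≤ |c| + 1 := hP.2
      rw [← e, P354V.sq, max_eq_left (by linarith), ← sub_eq_add_neg, hΛ] at i
      linarith [(t1 P j).2]
    · exact ⟨k3 P (wS P hP) (by linarith [hP.2.2, q0 (r2 + -kr M a P)]), hP.2.2⟩
  · have y0 : y ≠ 0 := xs_pt 0 y ▸ hy.1.2.1
    filter_upwards [isOpen_compl_singleton.mem_nhds y0] with z hz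
    exact h.ind z hz
  · show t P + _ ≤ _
    rw [q1 _ (by linarith [(sA P hP).2])]
    linarith [hc (mem_image_of_mem _ hP), le_abs_self c]

end Vale.Agent.P354LN
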