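import Vale.Agent.P354YI.Defs2
import Vale.Agent.P354YT.Line

/-!
CHT: a chart which straightens X and has the first coordinate t - β r.
-/

open scoped ContDiff
open Set Filter Topology

noncomputable section

namespace Vale.Agent.P354LN

open Vale.Agent.P354n (R4)
open Vale.Agent.P354I (rm rp)
open Vale.Agent.P354R (Del)
open Vale.Agent.P354XE (rd eT dr)
open Vale.Agent.P354XA (rd_cd rd_cont hor)
open Vale.Agent.P354YT
open Vale.Agent.P354YI (CHT Cht)

/-- The first row of an invertible map is replaced. -/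
theorem det_row (L L' : R4 →ₗ[ℝ] R4) (hL : 0 < LinearMap.det L) (e : ∀ v, (L' v).2 = (L v).2)
    {X : R4} {l : ℝ} (l0 : 0 < l) (hX : L X = l • eT) (h : 0 < (L' X).1) :
    0 < LinearMap.det L' := by
  have b : Function.Bijective L := by
    have i : Function.Injective L := LinearMap.ker_eq_bot.1 (by_contra fun k =>
      hL.ne' (LinearMap.det_eq_zero_iff_ker_ne_bot.2 k))
    exact ⟨i, LinearMap.surjective_of_injective i⟩
  let E := LinearEquiv.ofBijective L b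
  have k : ∀ v, ((L' ∘ₗ E.symm.toLinearMap) v).2 = v.2 := fun v =>
    (e _).trans (congrArg _ (E.apply_symm_apply v))
  have k0 : 0 < ((L' ∘ₗ E.symm.toLinearMap) (1, 0, 0, 0)).1 := by
    have : X = l • E.symm (1, 0, 0, 0) := by
      rw [← map_smul, LinearEquiv.eq_symm_apply]; exact hX
    rw [this, map_smul] at h
    exact pos_of_mul_pos_left (mul_comm l _ ▸ h) l0.le
  have c : L' = (L' ∘ₗ E.symm.toLinearMap) ∘ₗ L :=
    LinearMap.ext fun v => congrArg L' (E.symm_apply_apply v).symm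
  rw [c, LinearMap.det_comp]
  refine mul_pos ?_ hL
  rw [det4 _ rfl rfl rfl rfl, k, k, k, k]
  simpa using k0

theorem cht0 (c : Pm) (h : c.Ok) : ∃ Ψ π O, ∃ f : R4 → ℝ, P354TR.Inv Ψ π c.D O ∧
    (∀ p ∈ c.D, 0 < LinearMap.det (fderiv ℝ Ψ p : R4 →ₗ[ℝ] R4)) ∧
    (∀ p, (Ψ p).1 = p.1 - c.be (rd p)) ∧ ContDiffOn ℝ ∞ f O ∧ (∀ z ∈ O, 0 < f z) ∧
    (∀ p ∈ c.D, fderiv ℝ Ψ p (c.X p) = f (Ψ p) • eT) ∧
    ∀ z ∈ O, ∀ s ≤ z.1, (s, z.2) ∈ O ∧ (π (s, z.2)).1 ≤ (π z).1 ∧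
      rd (π (s, z.2)) ∈ uIcc c.R1 (rd (π z)) := by
  obtain ⟨Φ, i⟩ := h.ex_inv
  obtain ⟨c0, h0, lp⟩ := h.lam_pos
  have bd : ∀ r, HasDerivAt c.be (deriv c.be r) r := fun r => (h.be_d r).differentiableAt.hasDerivAt
  have xp : ∀ r, 0 < c.aa r - deriv c.be r * c.rr r := fun r => by
    obtain ⟨a1, a2⟩ := h.bi_mem r
    rw [(h.be_d r).deriv]
    exact h.X_pos (by linarith) fun k => by linarith [qm_pos h.sub (rp_lt h.sub k)]
  obtain ⟨Ψ, hΨ⟩ : ∃ Ψ : R4 → R4, Ψ = fun p => (p.1 - c.be (rd p), (c.Psi p).2) := ⟨_, rfl⟩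
  have sm : ∀ p ∈ c.D, ContDiffAt ℝ ∞ Ψ p := fun p hp => hΨ ▸
    (contDiffAt_fst.sub (h.be_cd.contDiffAt.comp p (rd_cd (h.pos hp).ne'))).prodMk (h.Psi_cd hp).snd
  have fd : ∀ p ∈ c.D, ∀ v, fderiv ℝ Ψ p v =
      (v.1 - deriv c.be (rd p) * dr p v, (fderiv ℝ c.Psi p v).2) := fun p hp v => by
    obtain ⟨a1, a2⟩ := (H2.tim (w := (p.1, rd p)) (bd _)).fd (h.pos hp).ne'
    have a3 := ((h.Psi_cd hp).differentiableAt (by simp)).hasFDerivAt
    rw [hΨ, (a1.hasFDerivAt.prodMk a3.snd).fderiv]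
    exact Prod.ext ((a2 v).trans (by ring)) rfl
  have fx : ∀ p ∈ c.D, fderiv ℝ Ψ p (c.X p) =
      (c.aa (rd p) - deriv c.be (rd p) * c.rr (rd p)) • eT := fun p hp => by
    rw [fd p hp, h.str hp, Pm.X_fst, Pm.X_dr c (h.pos hp).ne']
    simp [eT]
  have dt : ∀ p ∈ c.D, 0 < LinearMap.det (fderiv ℝ Ψ p : R4 →ₗ[ℝ] R4) := fun p hp =>
    det_row _ _ (h.det hp) (fun v => (congrArg Prod.snd (fd p hp v) :)) (h0.trans_le (lp p hp))
      (h.str hp) (by
        rw [show (fderiv ℝ Ψ p : R4 →ₗ[ℝ] R4) (c.X p) = _ from fx p hp]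
        simpa [eT] using xp (rd p))
  have mo := fun q hq => h.smono i (q := q) hq bd fun r _ => xp r
  have ln : ∀ q ∈ P0, ∀ s : ℝ, Ψ (Φ (q + s • eT)) =
      ((Φ (q + s • eT)).1 - c.be (rd (Φ (q + s • eT))), q.2) := fun q hq s => by
    simp only [hΨ, i.right _ (P0_sh hq s)]
    simp [eT]
  have inj : InjOn Ψ c.D := fun p hp p' hp' e => by
    have e2 : (c.Psi p).2 = (c.Psi p').2 := by simpa only [hΨ] using congrArg Prod.snd e
    have e1 : p.1 - c.be (rd p) = p'.1 - c.be (rd p') := by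
      simpa only [hΨ] using congrArg Prod.fst e
    have e3 : c.Psi p + ((c.Psi p').1 - (c.Psi p).1) • eT = c.Psi p' :=
      Prod.ext (by simp [eT]) (by simp [eT, e2])
    have e4 := (mo _ (h.Psi_map hp)).injective (a₁ := 0) (a₂ := (c.Psi p').1 - (c.Psi p).1) (by
      simp only [e3, zero_smul, add_zero, i.left p hp, i.left p' hp', e1])
    rw [← e4, zero_smul, add_zero] at e3
    exact h.inj hp hp' e3
  obtain ⟨π, I⟩ := P354TR.ex_inv c.open_D (fun p hp => (sm p hp).contDiffWithinAt) inj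
    fun p hp => (dt p hp).ne'
  refine ⟨Ψ, π, _, fun z => c.aa (rd (π z)) - deriv c.be (rd (π z)) * c.rr (rd (π z)), I, dt,
    fun p => by rw [hΨ], ?_, fun _ _ => xp _, fun p hp => by simp only [fx p hp, I.l p hp], ?_⟩
  · refine (h.aa_cd.sub ((contDiff_infty_iff_deriv.1 h.be_cd).2.mul Pm.rr_cd)).comp_contDiffOn
      (f := fun z => rd (π z)) fun z hz => ?_
    exact (rd_cd (h.pos (I.mh hz)).ne').comp_contDiffWithinAt z (I.sh z hz)
  rintro _ ⟨p, hp, rfl⟩ s hs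
  have hq := h.Psi_map hp
  have p0 : Φ (c.Psi p + (0 : ℝ) • eT) = p := by rw [zero_smul, add_zero, i.left p hp]
  have ct : Continuous fun u : ℝ => Φ (c.Psi p + u • eT) :=
    continuous_iff_continuousAt.2 fun u => (h.ga_d i hq u).continuousAt
  obtain ⟨u, hu⟩ : s ∈ range fun u : ℝ =>
      (Φ (c.Psi p + u • eT)).1 - c.be (rd (Φ (c.Psi p + u • eT))) := by
    have t := (h.t_bot i hq).atBot_add ((h.be_cd.continuous.tendsto _).comp (h.r_bot i hq)).neg
    obtain ⟨u, hu⟩ := (t.eventually (eventually_le_atBot s)).exists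
    refine intermediate_value_univ u 0 (ct.fst.sub (h.be_cd.continuous.comp (rd_cont.comp ct)))
      ⟨hu, ?_⟩
    show s ≤ (Φ _).1 - c.be (rd (Φ _))
    simpa only [p0, hΨ] using hs
  have u0 : u ≤ 0 := (mo _ hq).le_iff_le.1 (by simpa only [hu, p0, hΨ] using hs)
  have m := i.map (P0_sh hq u)
  have e : (s, (Ψ p).2) = Ψ (Φ (c.Psi p + u • eT)) := by
    rw [ln _ hq, ← hu, hΨ]
  rw [e, I.l _ m, I.l p hp]
  refine ⟨mem_image_of_mem _ m, by simpa only [p0] using (h.t_mono i hq).monotone u0, ?_⟩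
  have a1 := h.rad i hq u0
  have a2 := h.side i hq
  have a3 := h.side i (P0_sh hq u)
  simp only [p0] at a1
  rw [i.left p hp] at a2
  rw [rd_sh] at a3
  rcases lt_trichotomy (rd p) c.R1 with k | k | k
  · have := a3.2.1 (a2.2.2 k)
    rw [abs_of_neg (sub_neg.2 k), abs_of_neg (sub_neg.2 this)] at a1
    exact mem_uIcc.2 (.inr ⟨by linarith, this.le⟩)
  · rw [k, sub_self, abs_zero, abs_nonpos_iff, sub_eq_zero] at a1
    exact a1 ▸ left_mem_uIcc
  · have := a3.1.1 (a2.1.2 k)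
    rw [abs_of_pos (sub_pos.2 k), abs_of_pos (sub_pos.2 this)] at a1
    exact mem_uIcc.2 (.inl ⟨this.le, by linarith⟩)

/-- **CHT.** -/
theorem cht : CHT := by
  intro c h r0 hr
  obtain ⟨M0, m0, -⟩ := hor h.sub
  have k : Pm.Ok { c with r1 := r0, H := fun _ => 0, Rb := 10 * c.M } :=
    ⟨h.sub, hr, h.R1, h.k, h.Rs, h.s, contDiff_const, fun r (e : r0 ≤ r) => by
      have : 0 < r := (m0.trans_lt hr.1).trans_le e
      simp only [deriv_const', add_zero, Del]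
      exact ⟨one_pos, by nlinarith⟩, fun r (e : c.R1 ≤ r) => by
      simp only [deriv_const']
      linarith [qm_le h.sub (show 10 * c.M ≤ r by linarith [h.R1])], le_rfl, h.del⟩
  obtain ⟨Ψ, π, O, f, a1, a2, a3, a4, a5, a6, a7⟩ := cht0 _ k
  exact ⟨_, Ψ, π, O, f, a1, a2, a3, a4, a5, a6, a7, k.be_cd.continuous, k.be_mono,
    fun _ e => k.be_far e, fun _ e => k.be_ge e⟩

end Vale.Agent.P354LN
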