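import Vale.Agent.P354SG.JDefs
import Vale.Agent.P354SG.Inv

/-!
JT: the jets of the optical function.
-/

open scoped ContDiff Topology Nat
open Set Filter

noncomputable section

namespace Vale.Agent.P354LN

open Vale.Agent.P354n (R4)
open Vale.Agent.P354YQ
open Vale.Agent.P354SA
open Vale.Agent.P354SG

theorem jd_exp {k : ℕ} {m C t : ℝ} (m0 : 0 < m) (mC : m ≤ C) (C1 : 1 ≤ C) (h : |m * t| ≤ 1) :
    JD k (fun s => Real.exp (m * s)) t (3 * C ^ k * m) ∧ Real.exp (m * t) ≤ 3 := by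
  have e : Real.exp (m * t) ≤ 3 :=
    (Real.exp_le_exp.2 (le_of_abs_le h)).trans Real.exp_one_lt_three.le
  refine ⟨⟨SA.of (by fun_prop), fun i a b => ?_⟩, e⟩
  obtain ⟨j, rfl⟩ : ∃ j, i = j + 1 := ⟨i - 1, by omega⟩
  rw [norm_iteratedFDeriv_eq_norm_iteratedDeriv, iteratedDeriv_exp_const_mul,
    Real.norm_of_nonneg (by positivity), pow_succ]
  have : m ^ j ≤ C ^ k := (pow_le_pow_left₀ m0.le mC j).trans (pow_le_pow_right₀ C1 (by omega))
  calc m ^ j * m * Real.exp (m * t) ≤ C ^ k * m * 3 := by gcongr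
    _ = _ := by ring

/-- The product with an exponential. -/
theorem ex_mu (k : ℕ) (C : ℝ) : ∃ F, 0 ≤ F ∧ ∀ (N G : R4 → ℝ) (η m : ℝ), 1 ≤ C → JB k N 0 C →
    JD k N 0 η → 0 ≤ η → JD k G 0 C → 0 < m → m ≤ C → |m * G 0| ≤ 1 →
    JB k (fun ξ => N ξ * Real.exp (m * G ξ)) 0 F ∧
      JD k (fun ξ => N ξ * Real.exp (m * G ξ)) 0 (F * (η + m)) := by
  let a := k ! * (3 * |C| ^ k) * |C| ^ k
  have a0 : 0 ≤ a := by positivity
  refine ⟨2 ^ k * |C| * (a * |C| + 3) + |C| * a, by positivity,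
    fun N G η m C1 h1 h2 η0 h3 m0 mC h4 => ?_⟩
  have C0 : 0 ≤ C := by linarith
  simp only [a, abs_of_nonneg C0] at a0 ⊢
  set a := k ! * (3 * C ^ k) * C ^ k
  obtain ⟨e1, e2⟩ := jd_exp (k := k) m0 mC C1 h4
  have d : JD k (fun ξ => Real.exp (m * G ξ)) 0 (a * m) :=
    (JD.comp (u := fun s => Real.exp (m * s)) e1 h3 C1 (by positivity)).mono
      (le_of_eq (by simp only [a]; ring))
  have am : a * m ≤ a * C := mul_le_mul_of_nonneg_left mC a0
  have b : JB k (fun ξ => Real.exp (m * G ξ)) 0 (a * C + 3) := (d.mono (by linarith)).jb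
    ((Real.norm_of_nonneg (Real.exp_pos _).le).trans_le (by linarith [mul_nonneg a0 C0]))
  have p : (0 : ℝ) ≤ 2 ^ k * (a * C + 3) := by positivity
  refine ⟨(h1.smul b).mono (le_add_of_nonneg_right (by positivity)), JD.of_sub
    (N 0 * Real.exp (m * G 0)) (((((h2.sub_const η0).smul b).add (jb_csmul (N 0)
      (d.sub_const (by positivity)))).jd.congr (.of_forall fun ξ => by simp; ring)).mono ?_)⟩
  have := mul_le_mul_of_nonneg_right (show |N 0| ≤ C from h1.zero) (mul_nonneg a0 m0.le)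
  have := mul_le_mul_of_nonneg_right (le_mul_of_one_le_left p C1) η0
  have := mul_nonneg (mul_nonneg C0 p) m0.le
  have := mul_nonneg (mul_nonneg C0 a0) η0
  nlinarith

theorem gd_ip {H : W6 → ℝ} {q : W6} (h : DifferentiableAt ℝ H q) (c : ℝ) (c0 : R2) :
    Hs (fun y => H y - ip c0 y.2) q = Hs H q ∧
      Gd c H q = Gd c (fun y => H y - ip c0 y.2) q + (0, -c0, 0, 0) := by
  have d : ∀ w, fderiv ℝ (fun y => H y - ip c0 y.2) q w = fderiv ℝ H q w - ip c0 w.2 := fun w => by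
    have : HasFDerivAt (fun y => H y - ip c0 y.2) _ q := (h.hasFDerivAt.sub
      (((ipL c0).comp (.snd ℝ R4 R2)).hasFDerivAt (x := q))).congr_of_eventuallyEq
        (.of_forall fun y => by simp [ipL_ap])
    simp [this.fderiv, ipL_ap]
  simp only [Gd, Hs, Hy, Hl, d]
  simp [ip, Prod.ext_iff]
  refine ⟨?_, ?_, ?_⟩ <;> ring

theorem pt_ax {θ κ s : ℝ} (hθ : θ ≠ 0) (be : ℝ → ℝ) (x ξ : R4) :
    x + ax θ κ (pt e0 (fun ξ => θ * tu be (x + ax θ κ ξ)) s ξ) =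
      pt e0 (tu be) s (x + ax θ κ ξ) := by
  have a : ax θ κ e0 = θ⁻¹ • e0 := by simp [ax, e0]
  have b := (axL θ κ).map_sub ξ ((s * (θ * tu be (x + ax θ κ ξ))) • e0)
  rw [map_smul] at b
  change ax θ κ _ = ax θ κ ξ - _ • ax θ κ e0 at b
  rw [pt, pt, b, a, smul_smul, add_sub_assoc]
  congr 3
  field_simp

theorem ax_zero (θ κ : ℝ) (x : R4) : x + ax θ κ 0 = x := by
  rw [show ax θ κ 0 = 0 from (axL θ κ).map_zero, add_zero]

theorem ev_ax (θ κ : ℝ) {x : R4} {P : R4 → Prop} (h : ∀ᶠ w in 𝓝 x, P w) :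
    ∀ᶠ ξ in 𝓝 (0 : R4), P (x + ax θ κ ξ) :=
  (continuous_const.add (axL θ κ).continuous).continuousAt.eventually
    (show ∀ᶠ w in 𝓝 (x + ax θ κ 0), P w by rwa [ax_zero])

theorem jd_cl {X F G : Type} [NormedAddCommGroup X] [NormedSpace ℝ X] [NormedAddCommGroup F]
    [NormedSpace ℝ F] [NormedAddCommGroup G] [NormedSpace ℝ G] {f : X → F} {z : X} {k : ℕ} {C : ℝ}
    (L : F →L[ℝ] G) (hL : ‖L‖ ≤ 1) (h : JD k f z C) (h0 : 0 ≤ C) : JD k (fun w => L (f w)) z C :=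
  (h.clm L).mono (mul_le_of_le_one_left h0 hL)

theorem jd_yy {k : ℕ} {z : R4} : JD k (fun ξ : R4 => ξ.2.2) z 1 :=
  jd_cl (.snd ℝ ℝ R2) (ContinuousLinearMap.norm_snd_le ..) (jd_cl (.snd ℝ ℝ (ℝ × R2))
    (ContinuousLinearMap.norm_snd_le ..) JD.id zero_le_one) zero_le_one

/-- The jets of the scaled flow. -/
theorem jt_flow (n : ℕ) (K : ℝ) : ∃ F, 1 ≤ F ∧ ∀ (g : P354XE.Tw) (Φ : R4 → E6) (be : ℝ → ℝ)
    (La : R4 → ℝ) (x : R4) (l θ κ η m : ℝ), 1 ≤ K → 1 ≤ l → 1 ≤ θ → 0 < m → |tu be x| ≤ 1 →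
    (∀ s ∈ Icc (0 : ℝ) 1, Sol e0 (Fd 1 (Hm g)) Φ (pt e0 (tu be) s x) ∧
      Hb n K l θ m (Hm g) (qq (pt e0 (tu be) s x, Φ (pt e0 (tu be) s x)))) →
    (∀ᶠ w in 𝓝 x, Φ (pt e0 (tu be) 1 w) = x0 La w) → Ij (n + 2) K l θ κ η g be La x →
    JD (n + 2) (fun ξ => Bs l θ m⁻¹ (Φ (x + ax θ κ ξ))) 0 F := by
  obtain ⟨A, A1, hA⟩ := fld (n + 2)
  obtain ⟨F, F1, hF⟩ := dj (n + 2) ((n + 2)! * (A * K) + K + 1)
  refine ⟨F, F1, fun g Φ be La x l θ κ η m K1 l1 θ1 m0 hτ h h0 I => ?_⟩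
  have l0 : l ≠ 0 := by positivity
  have θ0 : 0 < θ := by positivity
  have f1 : (1 : ℝ) ≤ (n + 2)! := Nat.one_le_cast.2 (Nat.factorial_pos _)
  have AK : 0 ≤ A * K := by positivity
  have a1 : A * (K / θ) ≤ A * K := mul_le_mul_of_nonneg_left (div_le_self (by linarith) θ1)
    (by linarith)
  have a2 := le_mul_of_one_le_left AK f1
  have a3 := mul_le_mul_of_nonneg_left a1 (zero_le_one.trans f1)
  refine hF R4 E6 e0 (fun ξ => θ * tu be (x + ax θ κ ξ)) (Fd m⁻¹ (Hd (Hm g) l θ (0, x.1, 0))) _ 0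
    ((n + 2)! * (A * (K / θ))) (by simp [e0]; linarith) ?_ (by positivity) (by linarith) ?_
    (fun s i => ?_) ?_
  · have y : JD (n + 2) (fun ξ : R4 => ξ.1) 0 1 := (JD.lin (.fst ℝ ℝ (ℝ × R2))).mono
      (ContinuousLinearMap.norm_fst_le ..)
    refine ((((JD.const (θ * x.1)).add y).sub I.jbe).mono (by linarith)).congr
      (.of_forall fun ξ => ?_)
    simp only [tu, ax, Prod.fst_add]
    field_simp
  · rw [ax_zero, abs_mul, abs_of_pos θ0]
    have : θ * |tu be x| * ((n + 2)! * (A * (K / θ))) = |tu be x| * ((n + 2)! * (A * K)) := by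
      field_simp
    linarith [mul_le_of_le_one_left (mul_nonneg (zero_le_one.trans f1) AK) hτ]
  · obtain ⟨s1, s2, s3, c0, hc, s4⟩ := h s i
    set w := pt e0 (fun ξ => θ * tu be (x + ax θ κ ξ)) s 0
    have e : pt e0 (tu be) s x = x + ax θ κ w := by rw [pt_ax θ0.ne', ax_zero]
    rw [e] at s1 s2 s3 s4
    refine ⟨scale l0 θ0.ne' s1 s2, ?_⟩
    rw [← qq_sc (c := m⁻¹) l0 θ0.ne'] at s2 s3 s4
    set p : R4 × E6 := (w, Bs l θ m⁻¹ (Φ (x + ax θ κ w)))
    have q2 : ‖(qq p).2‖ ≤ 2 := by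
      have : ‖(l * θ) • (qq p).2‖ ≤ 2 * (l * θ) := (zero_add ((l * θ) • (qq p).2)) ▸ s3
      rw [norm_smul, Real.norm_of_nonneg (by positivity), mul_comm] at this
      exact le_of_mul_le_mul_right this (by positivity)
    obtain ⟨b1, b2⟩ := s4 _ q2
    rw [show (((0, x.1, 0), 0) + ML l θ (qq p) : W6).1 = dl l θ⁻¹ (0, x.1, 0) (qq p).1 from rfl,
      hd_tr] at b1 b2
    set H := Hd (Hm g) l θ (0, x.1, 0)
    have sH : SA H (qq p) := hd_sa s2
    have z : ((0, (qq p).2) : W6) + ((qq p).1, 0) = qq p := by simp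
    have j1 : JB (n + 3) (fun y => H y - ip c0 y.2) (qq p) (K / θ) :=
      z ▸ jb_tr (f := fun y => H y - ip c0 y.2) (by simpa using b1)
    have j2 : JB (n + 2) (Hs H) (qq p) (K * m / θ) := z ▸ jb_tr (f := Hs H)
      (b2.congr (.of_forall fun y => by simp only [Hs, fderiv_comp_add_right]))
    have j3 := hA m⁻¹ _ _ _ q2 j1 (((jb_csmul m⁻¹ j2).congr (sH.ev.mono fun y a =>
      congrArg _ (gd_ip a.diff 0 c0).1)).mono (le_of_eq (by
        rw [abs_of_pos (inv_pos.2 m0)]; field_simp)))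
    have j4 : JD (n + 2) (Gd m⁻¹ H) (qq p) (A * (K / θ)) :=
      ((j3.jd.add (JD.const _)).mono (add_zero _).le).congr
        (sH.ev.mono fun y a => (gd_ip a.diff _ c0).2)
    refine ⟨?_, (JD.comp (f := qL) j4 ((JD.lin qL).mono qL_le) le_rfl j3.nonneg).mono
      (by simp)⟩
    rw [Fd, (gd_ip sH.diff _ c0).2]
    refine (norm_add_le_of_le j3.zero (show _ ≤ K by simpa using hc)).trans ?_
    linarith
  · have y : JD (n + 2) (fun ξ : R4 => θ • x.2.2 + ξ.2.2) 0 K :=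
      ((JD.const _).add jd_yy).mono (by linarith)
    refine ((I.jla.prod (y.prod (I.jgy.prod ((JD.const (0 : ℝ)).mono (by linarith))))).mono
      (by linarith)).congr ((ev_ax θ κ h0).mono fun ξ a => ?_)
    simp only [pt_ax θ0.ne', a, x0, Bs_ap, mul_zero]
    simp [ax, smul_smul, θ0.ne']

/-- The change of variables on the slab. -/
def BL (c : ℝ) : R4 →L[ℝ] R4 := LinearMap.toContinuousLinearMap
  ⟨⟨fun z => (z.1 + z.2.1, c * (z.1 - z.2.1), z.2.2), fun _ _ => by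
    simp only [Prod.fst_add, Prod.snd_add, Prod.mk_add_mk, Prod.mk.injEq, and_true]
    constructor <;> ring⟩, fun r _ => by
    simp only [Prod.smul_fst, Prod.smul_snd, Prod.smul_mk, smul_eq_mul, RingHom.id_apply,
      Prod.mk.injEq, and_true]
    constructor <;> ring⟩

theorem BL_ap (c : ℝ) (z : R4) : BL c z = (z.1 + z.2.1, c * (z.1 - z.2.1), z.2.2) := rfl

theorem BL_le {c : ℝ} (c0 : 0 ≤ c) (c1 : c ≤ 1) : ‖BL c‖ ≤ 2 :=
  ContinuousLinearMap.opNorm_le_bound _ zero_le_two fun z => by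
    have a := norm_fst_le z
    have b := (norm_fst_le z.2).trans (norm_snd_le z)
    have d := (norm_snd_le z.2).trans (norm_snd_le z)
    have e := norm_nonneg z
    refine max_le ((norm_add_le_of_le a b).trans (by linarith)) (max_le ?_ (d.trans (by linarith)))
    refine (norm_mul_le c _).trans ((mul_le_of_le_one_left (norm_nonneg _) ?_).trans
      ((norm_sub_le_of_le a b).trans (by linarith)))
    rwa [Real.norm_of_nonneg c0]

theorem co_dl {θ κ : ℝ} (hκ : κ ≠ 0) (R T : ℝ) (p z : R4) :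
    co R T (dl θ⁻¹ θ⁻¹ p z) = co R T p + ax θ κ (BL (κ * θ)⁻¹ z) := by
  simp only [co, dl, ax, BL_ap, Prod.fst_add, Prod.snd_add, Prod.smul_fst, Prod.smul_snd,
    smul_eq_mul, Prod.mk_add_mk, Prod.mk.injEq, and_true, mul_inv, ← mul_assoc,
    mul_inv_cancel₀ hκ]
  constructor <;> ring

/-- **JT.** -/
theorem jt : JT := by
  intro n K
  obtain ⟨F1, f1, h1⟩ := jt_flow n K
  obtain ⟨F2, f2, h2⟩ := ij (n + 2) F1
  let c := (n + 2)! * F2 ^ (n + 2)
  have n1 : (1 : ℝ) ≤ (n + 2)! := Nat.one_le_cast.2 (Nat.factorial_pos _)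
  have c1 : 1 ≤ c := one_le_mul_of_one_le_of_one_le n1 (one_le_pow₀ f2)
  obtain ⟨F3, f3, h3⟩ := ex_mu (n + 2) (c * (F1 + K))
  let b : ℝ := (n + 2)! * 2 ^ (n + 2)
  have b0 : 0 ≤ b := by positivity
  refine ⟨1 + b * (c * F1) + 4 * (b * F3) * (c * |K| + 1), by
    have : 0 ≤ c * F1 := by positivity
    linarith [show 0 ≤ b * (c * F1) + 4 * (b * F3) * (c * |K| + 1) by positivity], ?_⟩
  intro g Φ ι be La Λ p x R T l θ κ η m hx K1 l1 θ1 m0 mK hη _ hτ sι hy hd hs h0 I h4 eΛ eM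
  rw [abs_of_nonneg (by linarith : 0 ≤ K)]
  have θ0 : 0 < θ := by positivity
  have κ0 : 0 < κ := (inv_pos.2 θ0).trans_le I.par.1
  have κθ : κ⁻¹ ≤ θ := inv_le_of_inv_le₀ θ0 I.par.1
  have j1 := h1 g Φ be La x l θ κ η m K1 l1 θ1 m0 hτ hs h0 I
  set p0 := co R T p
  let io : R4 → R2 := fun ξ => θ • (ι (p0 + ax θ κ ξ) - ι p0)
  have i0 : io 0 = 0 := by simp only [io, ax_zero, sub_self, smul_zero]
  have j0 : jj io 0 = 0 := Prod.ext rfl (Prod.ext rfl i0)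
  have ej : ∀ ξ, x + ax θ κ (jj io ξ) = jj ι (p0 + ax θ κ ξ) := fun ξ => by
    simp [hx, jj, ax, io, smul_smul, θ0.ne']
  have sΦ : SA Φ x := by simpa only [pt_zero] using (hs 0 ⟨le_rfl, zero_le_one⟩).1.sm
  have j2 : JD (n + 2) io 0 F2 := by
    refine h2 (fun ξ => θ • (Φ (x + ax θ κ ξ)).2.1 - θ • p0.2.2) io 0
      ((SA.comp (f := fun ξ => p0 + axL θ κ ξ) (by simpa using sι) (SA.of (by fun_prop))).mono
        fun _ a => (a.sub contDiffAt_const).const_smul θ) ?_ (fun ζ => ?_) ?_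
    · rw [show (((0 : R4).1, (0 : R4).2.1, io 0) : R4) = 0 from j0]
      exact ((jd_cl (.fst ℝ R2 (R2 × ℝ)) (ContinuousLinearMap.norm_fst_le ..)
        (jd_cl (.snd ℝ ℝ (R2 × R2 × ℝ)) (ContinuousLinearMap.norm_snd_le ..) j1 (by linarith))
        (by linarith)).sub (JD.const _)).mono (add_zero _).le
    · rw [show (((0 : R4).1, (0 : R4).2.1, io 0) : R4) = 0 from j0]
      have d : HasFDerivAt Φ (fderiv ℝ Φ x) (x + axL θ κ 0) := by
        simpa using sΦ.diff.hasFDerivAt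
      have e := (((d.comp 0 ((axL θ κ).hasFDerivAt.const_add x)).snd.fst.const_smul θ).sub_const
        (θ • p0.2.2)).fderiv
      have a : axL θ κ (0, 0, ζ) = θ⁻¹ • (0, 0, ζ) := show ax θ κ _ = _ by simp [ax]
      refine le_of_eq_of_le (congrArg (fun L : R4 →L[ℝ] R2 => ‖L (0, 0, ζ) - ζ‖) e) ?_
      simpa [a, -Prod.smul_mk, smul_smul, θ0.ne'] using hd ζ
    · refine (ev_ax θ κ hy).mono fun ξ a => ?_
      rw [show ((ξ.1, ξ.2.1, io ξ) : R4) = jj io ξ from rfl, ej, a]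
      simp [ax, smul_smul, θ0.ne']
  have j3 : JD (n + 2) (jj io) 0 F2 := ((jd_cl (.fst ℝ ℝ (ℝ × R2))
    (ContinuousLinearMap.norm_fst_le ..) JD.id zero_le_one).mono f2).prod
      (((jd_cl (.fst ℝ ℝ R2) (ContinuousLinearMap.norm_fst_le ..) (jd_cl (.snd ℝ ℝ (ℝ × R2))
        (ContinuousLinearMap.norm_snd_le ..) JD.id zero_le_one) zero_le_one).mono f2).prod j2)
  have cp : ∀ {E : Type} [NormedAddCommGroup E] [NormedSpace ℝ E] {u : R4 → E} {C : ℝ},
      JD (n + 2) u 0 C → 0 ≤ C → JD (n + 2) (fun ξ => u (jj io ξ)) 0 (c * C) := fun a a0 =>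
    (JD.comp (j0.symm ▸ a) j3 f2 a0).mono (le_of_eq (by simp only [c]; ring))
  have jG := cp j1 (by linarith)
  have cF : 0 ≤ c * F1 := by positivity
  have cK : K ≤ c * K := le_mul_of_one_le_left (by linarith) c1
  have sn := fun E F [NormedAddCommGroup E] [NormedSpace ℝ E] [NormedAddCommGroup F]
    [NormedSpace ℝ F] => ContinuousLinearMap.norm_snd_le ℝ E F
  obtain ⟨m1, m2⟩ := h3 _ _ (c * η) m (by linarith) (((cp I.mu.jd (by linarith)).mono
    (by linarith)).jb (by rw [j0]; exact I.mu.zero.trans (by linarith))) (cp I.md I.par.2.2)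
    (mul_nonneg (by linarith) I.par.2.2) ((jd_cl (.snd ℝ R2 ℝ) (sn ..) (jd_cl (.snd ℝ R2 (R2 × ℝ))
      (sn ..) (jd_cl (.snd ℝ ℝ (R2 × R2 × ℝ)) (sn ..) jG cF) cF) cF).mono (by linarith)) m0
    (by linarith) (by simpa [j0, ax_zero, Bs_ap, m0.ne'] using h4)
  simp only [ContinuousLinearMap.coe_snd', Bs_ap, mul_inv_cancel_left₀ m0.ne', ej] at m1 m2
  set μ : R4 → ℝ := fun ξ => mu0 g be La (jj ι (p0 + ax θ κ ξ)) *
    Real.exp (Φ (jj ι (p0 + ax θ κ ξ))).2.2.2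
  set B := BL (κ * θ)⁻¹
  have jB : ∀ k, JD k B 0 2 := fun k => (JD.lin B).mono (BL_le (by positivity)
    (inv_le_one_of_one_le₀ ((inv_le_iff_one_le_mul₀ θ0).1 I.par.1)))
  have dz : dl θ⁻¹ θ⁻¹ p = fun z => p + θ⁻¹ • z := rfl
  have ev : ∀ {P : R4 → Prop}, (∀ᶠ q in 𝓝 p, P q) → ∀ᶠ z in 𝓝 0, P (dl θ⁻¹ θ⁻¹ p z) := fun a =>
    (show Continuous (dl θ⁻¹ θ⁻¹ p) by rw [dz]; fun_prop).continuousAt.eventually
      (by simpa [dz] using a)
  have cB : ∀ {u : R4 → ℝ} {C : ℝ} {k : ℕ}, k ≤ n + 2 → JB k u 0 C →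
      JB k (fun z => u (B z)) 0 (b * C) := fun {u C k} i a =>
    (JB.comp (B.map_zero.symm ▸ a) (jB k) one_le_two).mono (by
      have := a.nonneg
      calc (k ! : ℝ) * C * 2 ^ k ≤ (n + 2)! * C * 2 ^ (n + 2) := by
            gcongr
            exact one_le_two
        _ = b * C := by simp only [b]; ring)
  have eM' : ∀ᶠ z in 𝓝 0, dv nv Λ (dl θ⁻¹ θ⁻¹ p z) = 2 * μ (B z) :=
    (ev eM).mono fun z a => a.trans (by simp only [co_dl κ0.ne']; rfl)
  have bF := mul_nonneg b0 f3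
  have bc := mul_nonneg b0 cF
  have bK := mul_nonneg bF (show 0 ≤ c * K by linarith)
  refine ⟨?_, ((jb_csmul 2 (cB (by omega) (m1.ord (Nat.le_succ _)))).congr eM').mono
    (by rw [abs_two]; linarith), ?_⟩
  · have a := jd_cl (.fst ℝ ℝ (R2 × R2 × ℝ)) (ContinuousLinearMap.norm_fst_le ..) jG cF
    refine JD.of_sub (l * (l⁻¹ * (Φ (x + ax θ κ (jj io 0))).1)) (((jb_csmul l
      (cB le_rfl (a.sub_const cF))).jd.congr ((ev eΛ).mono fun z e => ?_)).mono ?_)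
    · simp only [e, co_dl κ0.ne', ContinuousLinearMap.coe_fst', Bs_ap, ej, smul_eq_mul, mul_sub,
        mul_inv_cancel_left₀ (show l ≠ 0 by positivity)]
      rfl
    · rw [abs_of_pos (by positivity), mul_comm]
      exact mul_le_mul_of_nonneg_right (by linarith) (by linarith)
  · have a := jb_csmul (4 * κ⁻¹) (cB (k := n) (by omega) (jb_cl (.apply ℝ ℝ e1)
      (ContinuousLinearMap.opNorm_le_bound _ zero_le_one fun L => (L.le_opNorm e1).trans
        (by simp [e1])) (m2.ord (Nat.le_succ _)).fderiv))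
    refine (a.congr ?_).mono ?_
    · filter_upwards [eM'.eventually_nhds, B.continuous.continuousAt.eventually
        (B.map_zero.symm ▸ m1.sm.ev)] with z e s
      have i : ∀ q, dl θ⁻¹ θ⁻¹ p (θ • (q - p)) = q := fun q => by simp [dz, smul_smul, θ0.ne']
      have i' : θ • (dl θ⁻¹ θ⁻¹ p z - p) = z := by simp [dz, smul_smul, θ0.ne']
      have d := ((hasFDerivAt_id (𝕜 := ℝ) (dl θ⁻¹ θ⁻¹ p z)).sub_const p).const_smul θ
      have k : dv nv Λ =ᶠ[𝓝 (dl θ⁻¹ θ⁻¹ p z)] fun q => 2 * μ (B (θ • (q - p))) :=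
        (d.continuousAt.eventually (i'.symm ▸ e :)).mono fun q a => (congrArg _ (i q)).symm.trans a
      have d2 : HasFDerivAt μ (fderiv ℝ μ (B z)) (B (θ • (dl θ⁻¹ θ⁻¹ p z - p))) :=
        i'.symm ▸ s.diff.hasFDerivAt
      have d3 := (((d2.comp (f := fun q => B (θ • (q - p))) (dl θ⁻¹ θ⁻¹ p z) (B.hasFDerivAt.comp
        (dl θ⁻¹ θ⁻¹ p z) d)).const_mul 2).congr_of_eventuallyEq k).fderiv
      have n2 : B (θ • nv) = (2 * κ⁻¹) • e1 := by
        simp only [B, BL_ap, nv, e1, Prod.smul_mk, smul_eq_mul, Prod.mk.injEq]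
        refine ⟨by ring, ?_, by ring, by ring⟩
        field_simp
        ring
      rw [dv, d3]
      simp only [smul_apply, ContinuousLinearMap.comp_apply,
        ContinuousLinearMap.id_apply, n2, map_smul, smul_eq_mul, ContinuousLinearMap.apply_apply]
      ring
    · have e1 : κ⁻¹ * η ≤ K * θ * m := by
        rw [inv_mul_le_iff₀ κ0]
        linarith
      have e2 := mul_le_mul_of_nonneg_right κθ m0.le
      have e3 := mul_le_mul_of_nonneg_left e1 (mul_nonneg bF (zero_le_one.trans c1))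
      have e4 := mul_le_mul_of_nonneg_left e2 bF
      have e5 := mul_nonneg (add_nonneg zero_le_one bc) (mul_pos θ0 m0).le
      rw [abs_of_pos (by positivity)]
      linarith

end Vale.Agent.P354LN
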