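import Vale.Agent.P354SA.FD
import Vale.Agent.P354CH.Wt

/-!
WTF: the weights of the flow in the far zone.
-/

open Set Filter Topology MeasureTheory

noncomputable section

namespace Vale.Agent.P354LN

open Vale.Agent.P354n (R4)
open Vale.Agent.P354SA
open Vale.Agent.P354CH (jb_one jb_pos jb_ct)

theorem jb_abs (x : ℝ) : |x| ≤ jb x := Real.abs_le_sqrt (by linarith)

theorem jp_ct (T σ : ℝ) : Continuous fun t => jb (T - t) ^ (-σ) :=
  (jb_ct.comp (continuous_const.sub continuous_id)).rpow_const fun _ => .inl (jb_pos _).ne'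

theorem jp_int {σ : ℝ} (h : 1 < σ) : ∃ C ≥ 0, ∀ T a b, a ≤ b → ∫ t in a..b, jb (T - t) ^ (-σ) ≤ C := by
  have i : Integrable fun x : ℝ => jb x ^ (-σ) :=
    (integrable_rpow_neg_one_add_norm_sq (E := ℝ) (μ := volume) (by simpa using h)).congr
      (.of_forall fun x => by
        simp only [jb, Real.sqrt_eq_rpow, Real.norm_eq_abs, sq_abs]
        rw [← Real.rpow_mul (by positivity)]
        exact congrArg _ (by ring))
  have p : ∀ x, 0 ≤ jb x ^ (-σ) := fun x => Real.rpow_nonneg (jb_pos x).le _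
  refine ⟨∫ x, jb x ^ (-σ), integral_nonneg p, fun T a b l => ?_⟩
  rw [intervalIntegral.integral_comp_sub_left (fun x => jb x ^ (-σ)),
    intervalIntegral.integral_of_le (by linarith)]
  exact setIntegral_le_integral i (.of_forall p)

theorem rb_int {θ r2 s2 s : ℝ} (θ0 : 0 < θ) (r : 0 < r2) (h : s2 ≤ s) :
    ∫ t in s2..s, rb r2 s2 t ^ (-θ) / rb r2 s2 t ≤ 2 / θ * r2 ^ (-θ) := by
  have p : ∀ t ∈ uIcc s2 s, 0 < rb r2 s2 t := fun t m => by
    rw [uIcc_of_le h] at m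
    simp only [rb]
    linarith [m.1]
  have c : Continuous (rb r2 s2) := by unfold rb; fun_prop
  rw [intervalIntegral.integral_eq_sub_of_hasDerivAt (f := fun t => -(2 / θ) * rb r2 s2 t ^ (-θ))
    (f' := fun t => rb r2 s2 t ^ (-θ) / rb r2 s2 t) (fun t m => ((((hasDerivAt_id t).sub_const s2).div_const 2 |>.const_add r2).rpow_const
      (p := -θ) (.inl (p t m).ne') |>.const_mul (-(2 / θ))).congr_deriv ?_)
    (((c.continuousOn.rpow_const fun t m => .inl (p t m).ne').div c.continuousOn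
      fun t m => (p t m).ne').intervalIntegrable)]
  · have := mul_pos (div_pos two_pos θ0) (Real.rpow_pos_of_pos (p s right_mem_uIcc) (-θ))
    simp only [rb, sub_self, zero_div, add_zero] at this ⊢
    linarith
  · change _ * (_ * _ * rb r2 s2 t ^ _) = _
    rw [Real.rpow_sub_one (p t m).ne']
    field_simp

/-- The pointwise inequality. -/
theorem nu_le {B e σ δ T κ θ ρ : ℝ} {z : R4} (B0 : 0 ≤ B) (eκ : e ≤ κ ^ 2)
    (κ0 : 0 < κ) (κ1 : κ ≤ 1) (T0 : 0 < T) (ρ1 : 1 ≤ ρ) (h1 : 2 * θ ≤ δ) (δ0 : 0 ≤ δ) (δ1 : δ ≤ 1)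
    (h2 : 2 * θ ≤ σ - 1) (σ0 : 0 ≤ σ) (hz : z.2.1 ∈ Icc (ρ / 2) (2 * ρ))
    (h : ρ ≤ jb (T - z.1) ∨ T / 8 ≤ ρ) :
    nu B e σ δ T (ρ * ρ ^ (-θ) + κ * ρ ^ 2 / T) z ≤ 68 * B * (ρ ^ (-θ) / ρ +
      κ * (T⁻¹ + jb (T - z.1) ^ (-σ))) * (ρ * ρ ^ (-θ) + κ * ρ ^ 2 / T) := by
  have ρ0 : 0 < ρ := by linarith
  have r0 : 0 < z.2.1 := by linarith [hz.1]
  have sq : ∀ a, 2 * θ ≤ a → ρ ^ (-a) ≤ (ρ ^ (-θ)) ^ 2 := fun a l => by
    rw [← Real.rpow_natCast, ← Real.rpow_mul ρ0.le]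
    exact Real.rpow_le_rpow_of_exponent_le ρ1 (by push_cast; linarith)
  have a1 : z.2.1⁻¹ ≤ 2 * ρ⁻¹ := by
    rw [← div_eq_mul_inv, ← inv_div]
    exact inv_anti₀ (by positivity) hz.1
  have a2 : ρ⁻¹ ≤ (ρ ^ (-θ)) ^ 2 := Real.rpow_neg_one ρ ▸ sq 1 (by linarith)
  have a3 : z.2.1 ^ (-δ) ≤ 2 * (ρ ^ (-θ)) ^ 2 := by
    refine (Real.rpow_le_rpow_of_nonpos (by positivity) hz.1 (by linarith)).trans ?_
    rw [Real.div_rpow ρ0.le zero_le_two, Real.rpow_neg zero_le_two, div_inv_eq_mul, mul_comm]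
    refine mul_le_mul ?_ (sq δ h1) (by positivity) zero_le_two
    simpa using Real.rpow_le_rpow_of_exponent_le one_le_two δ1
  have j0 := Real.rpow_nonneg (jb_pos (T - z.1)).le (-σ)
  have e1 : e ≤ 1 := eκ.trans (pow_le_one₀ κ0.le κ1)
  have u0 := Real.rpow_pos_of_pos ρ0 (-θ)
  simp only [nu, om]
  set u := ρ ^ (-θ)
  set j := jb (T - z.1) ^ (-σ)
  set v := ρ * u + κ * ρ ^ 2 / T
  have w0 : 0 ≤ κ * ρ ^ 2 / T := by positivity
  have v1 : u ^ 2 ≤ u / ρ * v := by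
    have : u / ρ * v = u ^ 2 + u / ρ * (κ * ρ ^ 2 / T) := by simp only [v]; field_simp
    rw [this]
    exact le_add_of_nonneg_right (by positivity)
  have v2 : κ * ρ ^ 2 / T ≤ v := le_add_of_nonneg_left (by positivity)
  have v0 : 0 ≤ v := w0.trans v2
  have a4 : (v / z.2.1) ^ 2 ≤ 4 * (u / ρ * v + κ * T⁻¹ * v) := by
    have : 4 * (u / ρ * v + κ * T⁻¹ * v) = (v * (2 * ρ⁻¹)) ^ 2 := by
      have : u / ρ + κ * T⁻¹ = v * ρ⁻¹ ^ 2 := by simp only [v]; field_simp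
      linear_combination 4 * v * this
    rw [this, div_eq_mul_inv]
    gcongr
  have a5 : e * (jb (T - z.1) ^ (-δ) + z.2.1 * j) ≤
      3 * (u / ρ * v) + 64 * (κ * T⁻¹ * v) + 16 * (κ * j * v) := by
    have b1 := mul_le_mul_of_nonneg_right hz.2 j0
    have b2 : 0 ≤ κ * T⁻¹ * v := by positivity
    have b3 : 0 ≤ κ * j * v := by positivity
    have b4 := Real.rpow_nonneg (jb_pos (T - z.1)).le (-δ)
    rcases h with h | h
    · have c1 := (Real.rpow_le_rpow_of_nonpos ρ0 h (neg_nonpos.2 δ0)).trans (sq δ h1)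
      have c2 : ρ * j ≤ u ^ 2 := by
        refine (mul_le_mul_of_nonneg_left (Real.rpow_le_rpow_of_nonpos ρ0 h (neg_nonpos.2 σ0))
          ρ0.le).trans (le_of_eq_of_le ?_ (sq (σ - 1) h2))
        rw [neg_sub, sub_eq_add_neg, Real.rpow_add ρ0, Real.rpow_one]
      linarith [mul_le_of_le_one_left (add_nonneg b4 (mul_nonneg r0.le j0)) e1]
    · have c1 : jb (T - z.1) ^ (-δ) ≤ 1 :=
        Real.rpow_le_one_of_one_le_of_nonpos (jb_one _) (neg_nonpos.2 δ0)
      have t : 1 ≤ 8 * (ρ / T) := by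
        rw [← mul_div_assoc, one_le_div T0]
        linarith
      have c2 : κ ^ 2 ≤ 64 * (κ * T⁻¹ * v) := by
        calc κ ^ 2 ≤ κ ^ 2 * (8 * (ρ / T)) ^ 2 :=
              le_mul_of_one_le_right (by positivity) (one_le_pow₀ t)
          _ = 64 * (κ * T⁻¹ * (κ * ρ ^ 2 / T)) := by field_simp; norm_num
          _ ≤ _ := by gcongr
      have c3 : κ ^ 2 * (2 * ρ * j) ≤ 16 * (κ * j * v) := by
        calc _ ≤ κ ^ 2 * (2 * ρ * j) * (8 * (ρ / T)) := le_mul_of_one_le_right (by positivity) t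
          _ = 16 * (κ * j * (κ * ρ ^ 2 / T)) := by field_simp; ring
          _ ≤ _ := by gcongr
      have c4 : e * (jb (T - z.1) ^ (-δ) + z.2.1 * j) ≤ κ ^ 2 * (1 + 2 * ρ * j) := by gcongr
      linarith [sq_nonneg u]
  have a6 := mul_le_of_le_one_left (Real.rpow_nonneg r0.le (-δ)) e1
  have a7 : 0 ≤ κ * j * v := by positivity
  rw [mul_comm 68 B, mul_assoc B, mul_assoc B]
  exact mul_le_mul_of_nonneg_left (by linarith [sq_nonneg u]) B0

theorem wk_alg {C1 b B η ε κ T u0 u ρ j : ℝ} (b1 : 1 ≤ b) (c0 : 0 ≤ C1) (B0 : 0 ≤ B) (κ0 : 0 < κ)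
    (κ1 : κ ≤ 1) (l : 1 ≤ ρ) (g : ρ ≤ 2 * T) (T1 : 1 ≤ T) (a0 : 0 < u) (a1 : u ≤ u0)
    (a2 : 1 ≤ ρ * u * u) (a3 : ρ * u ≤ ε * T / 2) (j0 : 0 ≤ j) (j1 : j ≤ 1)
    (u2 : 4 * b * u0 ≤ 1 / 2) (u3 : 2 * C1 * u0 ≤ 1) (k2 : 8 * b * κ ≤ 1 / 2) (k3 : 4 * κ ≤ ε / 2)
    (k4 : 68 * B * (u0 + κ * (1 + 1)) ≤ η) :
    2 * C1 ≤ ρ * u + κ * ρ ^ 2 / T ∧ 4 * b * (ρ * u + κ * ρ ^ 2 / T) ≤ ρ ∧
      ρ * u + κ * ρ ^ 2 / T ≤ ε * T ∧ 0 ≤ 68 * B * (u / ρ + κ * (T⁻¹ + j)) ∧
      68 * B * (u / ρ + κ * (T⁻¹ + j)) ≤ η ∧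
      68 * B * (u / ρ + κ * (T⁻¹ + j)) * (ρ * u + κ * ρ ^ 2 / T) ≤
        68 * B * (3 * u0 + 6 * κ) + 408 * B * κ * T * j := by
  have p : 0 < ρ := by linarith
  have T0 : 0 < T := by linarith
  have a4 : κ * ρ ^ 2 / T ≤ 2 * κ * ρ := by
    rw [div_le_iff₀ T0]
    linarith [mul_le_mul_of_nonneg_left g (mul_pos κ0 p).le]
  have a5 : 0 ≤ κ * ρ ^ 2 / T := by positivity
  have a6 : u0 ≤ 1 := by nlinarith
  have a7 : ρ * u + κ * ρ ^ 2 / T ≤ 3 * ρ := by nlinarith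
  have a8 : u / ρ ≤ u0 := (div_le_self a0.le l).trans a1
  have a9 : T⁻¹ ≤ 1 := inv_le_one_of_one_le₀ T1
  refine ⟨?_, ?_, ?_, by positivity, le_trans (by gcongr) k4, ?_⟩
  · have d1 := a2.trans (mul_le_mul_of_nonneg_left a1 (mul_pos p a0).le)
    linarith [mul_le_mul_of_nonneg_left d1 c0, mul_le_mul_of_nonneg_left u3 (mul_pos p a0).le]
  · linarith [mul_le_mul_of_nonneg_left a1 (show 0 ≤ 4 * b * ρ by positivity),
      mul_le_mul_of_nonneg_left a4 (show 0 ≤ 4 * b by positivity),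
      mul_le_mul_of_nonneg_left u2 p.le, mul_le_mul_of_nonneg_left k2 p.le]
  · linarith [mul_le_mul_of_nonneg_left g κ0.le, mul_le_mul_of_nonneg_left k3 T0.le]
  · calc _ ≤ 68 * B * (u / ρ + κ * (T⁻¹ + j)) * (3 * ρ) := by gcongr
      _ = 68 * B * (3 * u + 3 * κ * (T⁻¹ + j) * ρ) := by field_simp
      _ ≤ 68 * B * (3 * u0 + 3 * κ * (T⁻¹ + j) * (2 * T)) := by gcongr
      _ = _ := by field_simp; ring

/-- **WTF.** -/
theorem wtf : WTF := by
  intro σ hσ δ hδ C1 c1 b b1 B B1 η η0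
  obtain ⟨C, C0, hC⟩ := jp_int hσ.1
  set θ := min δ (σ - 1) / 2
  have θ0 : 0 < θ := half_pos (lt_min hδ.1 (sub_pos.2 hσ.1))
  have t1 : 2 * θ ≤ δ := by linarith [min_le_left δ (σ - 1), show θ = min δ (σ - 1) / 2 from rfl]
  have t2 : 2 * θ ≤ σ - 1 := by
    linarith [min_le_right δ (σ - 1), show θ = min δ (σ - 1) / 2 from rfl]
  have sm : ∀ a > (0 : ℝ), ∃ r : ℝ, ∀ x ≥ r, x ^ (-θ) ≤ a := fun a a0 => eventually_atTop.1
    ((tendsto_rpow_neg_atTop θ0).eventually (ge_mem_nhds a0))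
  have sk : ∀ a > 0, ∀ c : ℝ, 0 ≤ c → ∀ᶠ κ in 𝓝[>] (0 : ℝ), c * κ ≤ a := fun a a0 c _ =>
    nhdsWithin_le_nhds ((show Tendsto (c * ·) (𝓝 0) (𝓝 0) by
      simpa using (tendsto_id (x := 𝓝 (0 : ℝ))).const_mul c).eventually (ge_mem_nhds a0))
  have i0 : 0 < 2 / θ := by positivity
  obtain ⟨u0, ⟨⟨u1, u2⟩, u3⟩, u4⟩ := (((sk (η / 2) (by positivity) (68 * B * (3 + 2 / θ))
    (by positivity)).and (sk (1 / 2) (by positivity) (4 * b) (by positivity))).and
    (sk 1 one_pos (2 * C1) (by positivity)) |>.and self_mem_nhdsWithin).exists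
  obtain ⟨r0, h0⟩ := sm u0 u4
  refine ⟨max 1 r0, fun r2 hr C3 ε ε0 => ?_⟩
  have r1 : 1 ≤ r2 := le_of_max_le_left hr
  obtain ⟨κ, ⟨⟨⟨k1, k2⟩, k3⟩, k4⟩, κ0⟩ := ((((sk (η / 2) (by positivity) (68 * B * (18 + 25 * C))
    (by positivity)).and (sk (1 / 2) (by positivity) (8 * b) (by positivity))).and
    (sk (ε / 2) (by positivity) 4 (by positivity))).and (sk 1 one_pos 1 zero_le_one) |>.and
    self_mem_nhdsWithin).exists
  replace κ0 : 0 < κ := κ0
  replace u4 : 0 < u0 := u4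
  obtain ⟨T1, hT⟩ := sm (ε / 4) (by positivity)
  refine ⟨κ ^ 2, by positivity, max (max (2 * r2) (4 * C3)) (T1 / 2), fun e he T h s2 hs => ?_⟩
  simp only [ge_iff_le, max_le_iff] at h
  have T0 : 0 < T := by linarith [h.1.1]
  have cr : Continuous (rb r2 s2) := by unfold rb; fun_prop
  have rI : ∀ s ∈ Icc s2 (3 * T), rb r2 s2 s ∈ Icc r2 (2 * T) := fun s m => by
    constructor <;> simp only [rb] <;> linarith [m.1, m.2, hs.1, h.1.1]
  have r0' : ∀ s ∈ Icc s2 (3 * T), 0 < rb r2 s2 s := fun s m => by linarith [(rI s m).1]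
  have cu : ContinuousOn (fun s => rb r2 s2 s ^ (-θ)) (Icc s2 (3 * T)) :=
    cr.continuousOn.rpow_const fun s m => .inl (r0' s m).ne'
  have cj := jp_ct T σ
  let vp := fun s => rb r2 s2 s * rb r2 s2 s ^ (-θ) + κ * rb r2 s2 s ^ 2 / T
  let m := fun s => 68 * B * (rb r2 s2 s ^ (-θ) / rb r2 s2 s + κ * (T⁻¹ + jb (T - s) ^ (-σ)))
  have cv : ContinuousOn vp (Icc s2 (3 * T)) := (cr.continuousOn.mul cu).add (by fun_prop)
  have c1' : ContinuousOn (fun s => rb r2 s2 s ^ (-θ) / rb r2 s2 s) (Icc s2 (3 * T)) :=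
    cu.div cr.continuousOn fun s m => (r0' s m).ne'
  have cm : ContinuousOn m (Icc s2 (3 * T)) := continuousOn_const.mul (c1'.add
    ((continuous_const.add cj).const_mul κ).continuousOn)
  have pw : ∀ x : ℝ, 0 < x → x * x ^ (-θ) = x ^ (1 - θ) := fun x a => by
    rw [sub_eq_add_neg, Real.rpow_add a, Real.rpow_one]
  have θ1 : 0 ≤ 1 - θ := by linarith [hδ.2]
  have Bk : 0 ≤ B * κ := by positivity
  have BC : 0 ≤ B * κ * C := by positivity
  have Bu : 0 ≤ B * u0 := by positivity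
  have Bi : 0 ≤ B * u0 * (2 / θ) := by positivity
  have key : ∀ s ∈ Icc s2 (3 * T), 2 * C1 ≤ vp s ∧ 4 * b * vp s ≤ rb r2 s2 s ∧ vp s ≤ ε * T ∧
      0 ≤ m s ∧ m s ≤ η ∧ m s * vp s ≤ 68 * B * (3 * u0 + 6 * κ) +
        408 * B * κ * T * jb (T - s) ^ (-σ) := fun s i => by
    have p := r0' s i
    obtain ⟨l, g⟩ := rI s i
    have a0 := Real.rpow_pos_of_pos p (-θ)
    have a1 := h0 _ ((le_of_max_le_right hr).trans l)
    have a2 : 1 ≤ rb r2 s2 s * rb r2 s2 s ^ (-θ) * rb r2 s2 s ^ (-θ) := by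
      rw [pw _ p, ← Real.rpow_add p]
      exact Real.one_le_rpow (r1.trans l) (by linarith [hδ.2])
    have a3 : rb r2 s2 s * rb r2 s2 s ^ (-θ) ≤ ε * T / 2 := by
      rw [pw _ p]
      refine (Real.rpow_le_rpow p.le g θ1).trans ?_
      rw [← pw _ (by positivity)]
      linarith [mul_le_mul_of_nonneg_left (hT (2 * T) (by linarith [h.2])) T0.le]
    have j0 := Real.rpow_nonneg (jb_pos (T - s)).le (-σ)
    have j1 : jb (T - s) ^ (-σ) ≤ 1 :=
      Real.rpow_le_one_of_one_le_of_nonpos (jb_one _) (by linarith [hσ.1])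
    exact wk_alg b1 (by linarith) (by linarith) κ0 (by linarith) (r1.trans l) g (by linarith [h.1.1])
      a0 a1 a2 a3 j0 j1 u2 u3 k2 k3 (by linarith)
  have far : ∀ s ∈ Icc s2 (3 * T), T / 2 ≤ |T - s| → m s * vp s ≤ η := fun s i a => by
    have : T * jb (T - s) ^ (-σ) ≤ 2 := by
      have := (Real.rpow_le_rpow_of_exponent_le (jb_one (T - s)) (neg_le_neg hσ.1.le)).trans
        ((Real.rpow_neg_one _).trans_le (inv_anti₀ (half_pos T0) (a.trans (jb_abs _))))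
      refine (mul_le_mul_of_nonneg_left this T0.le).trans (le_of_eq ?_)
      field_simp
    linarith [(key s i).2.2.2.2.2, mul_le_mul_of_nonneg_left this Bk]
  have sb : ∀ s ∈ Icc s2 (3 * T), uIcc s2 s ⊆ Icc s2 (3 * T) := fun s i =>
    uIcc_of_le i.1 ▸ Icc_subset_Icc_right i.2
  have s3 : s2 ≤ 3 * T := by linarith [hs.2, h.1.2]
  refine ⟨vp, m, fun s => m s * vp s, ⟨cv, cm, cm.mul cv⟩, fun s i t i' l => ?_, fun s i => ?_, ?_,
    ?_⟩
  · have : rb r2 s2 s ≤ rb r2 s2 t := by simp only [rb]; linarith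
    have p := r0' s i
    simp only [vp, pw _ p, pw _ (r0' t i')]
    gcongr
  · obtain ⟨a1, a2, a3, a4, a5, -⟩ := key s i
    have ii := ((cm.mul cv).mono (sb s i)).intervalIntegrable (μ := volume)
    refine ⟨a1, a2, a3, a4, mul_nonneg a4 (by linarith), le_rfl, fun z e1 e2 => ?_, ?_,
      fun a => ⟨far s i (le_abs.2 (.inr (by linarith))), a5⟩⟩
    · subst e1
      refine nu_le (by linarith) he.2 κ0 (by linarith) T0 (r1.trans (rI _ i).1) t1 hδ.1.le
        hδ.2 t2 (by linarith [hσ.1]) e2 ((le_total (T / 8) _).symm.imp_left fun a => ?_)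
      refine le_trans ?_ ((le_abs_self _).trans (jb_abs _))
      simp only [rb] at a ⊢
      linarith [hs.2, h.1.2]
    · rcases le_total s (T / 2) with a | a
      · refine (intervalIntegral.integral_mono_on i.1 ii intervalIntegrable_const fun t j =>
          far t ⟨j.1, j.2.trans i.2⟩ (le_abs.2 (.inl (by linarith [j.2])))).trans (le_of_eq ?_)
        simp [mul_comm]
      · have i2 := (cj.const_mul (408 * B * κ * T)).intervalIntegrable (μ := volume) s2 s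
        refine (intervalIntegral.integral_mono_on i.1 ii (intervalIntegrable_const.add i2)
          fun t j => (key t ⟨j.1, j.2.trans i.2⟩).2.2.2.2.2).trans ?_
        rw [intervalIntegral.integral_add intervalIntegrable_const i2,
          intervalIntegral.integral_const, intervalIntegral.integral_const_mul, smul_eq_mul]
        have b1 := mul_le_mul_of_nonneg_left (hC T s2 s i.1) (mul_nonneg Bk T0.le)
        have b2 := mul_le_mul_of_nonneg_left (show T ≤ 4 * (s - s2) by linarith [hs.2, h.1.2]) BC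
        have b3 := mul_le_mul_of_nonneg_left (show 68 * B * (3 * u0 + 6 * κ) + 1632 * (B * κ * C)
          ≤ η by linarith) (sub_nonneg.2 i.1)
        linarith
  · have i1 := (c1'.mono (sb _ ⟨s3, le_rfl⟩)).intervalIntegrable (μ := volume)
    have i2 := cj.intervalIntegrable (μ := volume) s2 (3 * T)
    simp only [m]
    rw [intervalIntegral.integral_const_mul, intervalIntegral.integral_add i1
      ((intervalIntegrable_const.add i2).const_mul κ), intervalIntegral.integral_const_mul,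
      intervalIntegral.integral_add intervalIntegrable_const i2, intervalIntegral.integral_const,
      smul_eq_mul]
    have b1 := (rb_int θ0 (by linarith : 0 < r2) s3).trans
      (mul_le_mul_of_nonneg_left (h0 r2 (le_of_max_le_right hr)) i0.le)
    have b2 : (3 * T - s2) * T⁻¹ ≤ 3 := by
      rw [← div_eq_mul_inv, div_le_iff₀ T0]
      linarith [hs.1]
    have b3 := hC T s2 _ s3
    calc _ ≤ 68 * B * (2 / θ * u0 + κ * (3 + C)) := by gcongr
      _ ≤ η := by linarith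
  · have : e ≤ κ := he.2.trans (by nlinarith)
    linarith [mul_le_mul_of_nonneg_left this (show 0 ≤ B by linarith)]

end Vale.Agent.P354LN
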